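import Vale.Agent.P215Z.Wall.Main.Der

noncomputable section
namespace Vale.Agent.P215Z
open MvPolynomial Classical
namespace CurveSys
variable {O : Type} [CommRing O] [Algebra ℚ O] {C G : Type} [Fintype C] {S : CurveSys C} {n : ℕ}
  {mk : C → G} (hn : 0 < n) (hS : S.Valid n mk) (m : Marked O G) {X : C → M2 O}
  (hX : ∀ c, InC (m.ii (mk c)) (X c)) {A : F1 O} (hA : Good1 (KdQ n) A) (hA' : In1 (KdQ n) m.a A)

/-! W3: the wall potential -/
include hn hS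
theorem wall : ∃ φ : MvPolynomial (C × I2) ℚ, constantCoeff φ = 0 ∧
    (∀ v, constantCoeff (pderiv v φ) = 0) ∧
    ∀ (O : Type) [CommRing O] [Algebra ℚ O] (m : Marked O G) (X : C → M2 O) (A : F1 O)
      (b : Ideal O), (∀ c, InC (m.ii (mk c)) (X c)) → Good1 (KdQ n) A → In1 (KdQ n) m.a A →
      S.Crit n A X b →
      S.SS n A X - evX X φ ∈ b ^ 2 ∧ ∀ c a a', evX X (pderiv (c, (a', a)) φ) +
        2 * lg (at0U (S.H A c) : M2 O) a a' ∈ b ⊔ m.ii (mk c) := by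
  obtain ⟨φ, hφ⟩ := W3.exists_pot hn hS
  let m : Marked ℚ G := ⟨⊥, fun _ => ⊥, IsNilpotent.zero, fun _ => Ideal.mul_bot _, fun _ => le_rfl⟩
  have h1 : ∀ c, InC (m.ii (mk c)) ((0 : C → M2 ℚ) c) := fun _ => InC.zero
  have h0 : ∀ k, pd k (0 : MM ℚ) = 0 := fun k => Matrix.map_zero _ (map_zero _)
  have h2 : Good1 (KdQ n) (0 : F1 ℚ) :=
    ⟨fun _ _ _ j _ _ => h0 j, fun _ _ _ _ _ _ _ _ => (Matrix.map_zero _ (map_zero _)).symm⟩
  have h3 : In1 (KdQ n) m.a (0 : F1 ℚ) := fun _ _ _ _ => InC.zero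
  have h4 : S.Crit n (0 : F1 ℚ) 0 ⊥ := by
    refine ⟨fun τ l _ i j _ _ => InC.sub ?_ (Jw_inI_a hn hS m h1 0 τ l i j), fun c => ?_⟩
    · simp only [curv, dd1, Pi.zero_apply, h0, Ring.lie_def, mul_zero, sub_zero, add_zero]
      exact InC.zero
    · simp only [Pi.zero_apply, Ring.lie_def, mul_zero, zero_mul, sub_zero]
      exact InC.zero
  have h5 : ∀ f, evX (0 : C → M2 ℚ) f = constantCoeff f := fun f => aeval_zero' f
  refine ⟨φ, ?_, ?_, fun O _ _ m X A b a1 a2 a3 a4 =>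
    ⟨hφ O m X A b a1 a2 a3 a4, W3.pot_der hn hS m a1 a2 a3 a4 hφ⟩⟩
  · have h6 := Ideal.pow_le_self two_ne_zero (hφ ℚ m 0 0 ⊥ h1 h2 h3 h4)
    have h7 : cst (0 : M2 ℚ) = 0 := Matrix.map_zero _ (map_zero _)
    simpa [SS, CS, Bd, csd, h5, h7] using h6
  · rintro ⟨c, a', a⟩
    have h6 := W3.pot_der hn hS m h1 h2 h3 h4 hφ c a a'
    have h7 : (at0U (S.H (0 : F1 ℚ) c) : M2 ℚ) = 1 := by
      have h8 := inC_bot.1 (InI.at0 (H_mem hn hS m h3 c))
      rw [W3.at0_sub, sub_eq_zero] at h8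
      exact h8.trans (Matrix.map_one _ (map_zero _) (map_one _))
    rw [h7, lg_one, h5] at h6
    simpa [m] using h6
end CurveSys

end Vale.Agent.P215Z
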