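import Vale.Agent.P215Z.Wall.Base

noncomputable section
namespace Vale.Agent.P215Z
open MvPolynomial Classical

set_option linter.unusedSectionVars false

namespace Exist
variable {O : Type} [CommRing O]

/-- Nakayama for a nilpotent ideal -/
theorem nak {a M N : Ideal O} (ha : IsNilpotent a) (h : M ≤ N ⊔ a * M) : M ≤ N := by
  obtain ⟨k, hk⟩ := ha
  have h1 : ∀ j : ℕ, M ≤ N ⊔ a ^ j * M := fun j => by
    induction j with
    | zero => simp
    | succ j ih =>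
      refine h.trans (sup_le le_sup_left ((Ideal.mul_mono_right ih).trans ?_))
      rw [Ideal.mul_sup, ← mul_assoc, ← pow_succ']
      exact sup_le_sup_right Ideal.mul_le_right _
  simpa [hk] using h1 k

theorem lie_inC {a b : Ideal O} {x y : M2 O} (hx : InC a x) (hy : InC b y) : InC (a * b) ⁅x, y⁆ := by
  rw [Ring.lie_def]
  exact (hx.mul hy).sub (mul_comm b a ▸ hy.mul hx)

theorem lie_sub' {B : Type} [Ring B] (x y z : B) : ⁅x, y - z⁆ = ⁅x, y⁆ - ⁅x, z⁆ := by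
  simp only [Ring.lie_def, mul_sub, sub_mul]
  abel

variable [Algebra ℚ O]

theorem lie_inI {a b : Ideal O} {x y : MM O} (hx : InI a x) (hy : InI b y) : InI (a * b) ⁅x, y⁆ := by
  rw [Ring.lie_def]
  exact InC.sub (hx.mul hy) (mul_comm b a ▸ hy.mul hx)

theorem at0_sub (x y : MM O) : at0 (x - y) = at0 x - at0 y := by
  ext i j
  simp [at0]

theorem dA2_sub (A : F1 O) (e e' : F2 O) (p : Pt) (i j k : Fin 4) :
    dA2 A (e - e') p i j k = dA2 A e p i j k - dA2 A e' p i j k := by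
  simp only [dA2, cov, Pi.sub_apply, pd_sub, lie_sub']
  abel

theorem dd2_eq (A : F1 O) (e : F2 O) (p : Pt) (i j k : Fin 4) : dd2 e p i j k =
    dA2 A e p i j k - (⁅A p i, e p j k⁆ + ⁅A p j, e p k i⁆ + ⁅A p k, e p i j⁆) := by
  simp only [dA2, cov, dd2]
  abel

theorem good_zero (K : Set Pt) : Good1 K (0 : F1 O) :=
  ⟨fun _ _ _ j _ _ => by
    ext a a'
    simp [pd], fun _ _ k c _ _ _ _ => by
    ext a a'
    simp [evM]⟩

theorem curv_zero (p : Pt) (i j : Fin 4) : curv (0 : F1 O) p i j = 0 := by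
  ext a a'
  simp [curv, dd1, pd, Ring.lie_def]

omit [Algebra ℚ O] in
theorem ne_of_odd {n : ℕ} {τ : Pt} {l i : Fin 4} (h : Is3 n τ l) (hi : Odd (τ i)) : i ≠ l := by
  rintro rfl
  rcases h.1 with h1 | h1 <;> rw [h1] at hi
  · exact absurd hi (by decide)
  · exact (Int.not_odd_iff_even.2 (even_two_mul _)) hi

end Exist

namespace CurveSys
variable {O : Type} [CommRing O] [Algebra ℚ O] {C G : Type} [Fintype C] {S : CurveSys C} {n : ℕ}
  {mk : C → G} (hn : 0 < n) (hS : S.Valid n mk) (m : Marked O G) {X : C → M2 O}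
  (hX : ∀ c, InC (m.ii (mk c)) (X c)) {A : F1 O} (hA : Good1 (KdQ n) A) (hA' : In1 (KdQ n) m.a A)

/-! W1: existence of a critical connection -/
/-- the obstruction ideal -/
def MW (S : CurveSys C) (A : F1 O) (X : C → M2 O) : Ideal O :=
  Ideal.span {f | ∃ c a a', f = (⁅X c, (at0U (S.H A c) : M2 O)⁆ : M2 O) a a'}

omit [Fintype C] in
theorem ex_inC_MW (S : CurveSys C) (A : F1 O) (X : C → M2 O) (c : C) :
    InC (S.MW A X) ⁅X c, (at0U (S.H A c) : M2 O)⁆ := fun a a' => Ideal.subset_span ⟨c, a, a', rfl⟩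

omit [Fintype C] in
theorem ex_MW_le {S : CurveSys C} {A : F1 O} {X : C → M2 O} {b : Ideal O}
    (h : ∀ c, InC b ⁅X c, (at0U (S.H A c) : M2 O)⁆) : S.MW A X ≤ b :=
  Ideal.span_le.2 fun _ ⟨c, a, a', e⟩ => e ▸ h c a a'

include hn hS hX

include hA hA' in
theorem ex_crit_step {j : ℕ} (hF : ∀ τ l, Is3 n τ l → ∀ i i', i ≠ l → i' ≠ l →
    InI (S.MW A X ⊔ m.a ^ (j + 1)) (curv A τ i i' - S.Jw A X τ l i i')) :
    ∃ B : F1 O, Good1 (KdQ n) B ∧ In1 (KdQ n) m.a B ∧ ∀ τ l, Is3 n τ l → ∀ i i', i ≠ l → i' ≠ l →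
      InI (S.MW B X ⊔ m.a ^ (j + 2)) (curv B τ i i' - S.Jw B X τ l i i') := by
  have hXa : ∀ c, InC m.a (X c) := fun c => (hX c).mono (m.le _)
  set b := S.MW A X ⊔ m.a ^ (j + 1) with hb
  have hba : b ≤ m.a := sup_le (ex_MW_le fun c => by
    rw [Ring.lie_def]
    exact ((hXa c).mul_right _).sub ((hXa c).mul_left _)) (Ideal.pow_le_self j.succ_ne_zero)
  have hcb : S.MW A X ⊔ m.a * b ≤ b := sup_le le_sup_left Ideal.mul_le_right
  obtain ⟨J, hJ, -, hJ3, hJw⟩ := exists_J hn hS m hX hA hA' hF (ex_inC_MW S A X)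
  have he : Good2 (KdQ n) (curv A - J) := hA.curv.sub hJ
  have he2 : In2 (KdQ n) b (curv A - J) := fun p hp i i' hi hi' => by
    obtain ⟨τ, l, h3, hf⟩ := exists_is3 hn hp
    refine he.inI_face (cx_KdQ n) h3.mem hf (fun k k' hk hk' => ?_) i i' hi hi'
    have h1 := Exist.ne_of_odd h3 hk
    have h2 := Exist.ne_of_odd h3 hk'
    have h4 := InC.sub (hF τ l h3 k k' h1 h2) ((hJw τ l h3 k k' h1 h2).mono hcb)
    rwa [sub_sub_sub_cancel_right] at h4
  have he3 : In3 (KdQ n) (S.MW A X ⊔ m.a * b) (dd2 (curv A - J)) :=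
    fun p hp i i' k hi hi' hk h1 h2 h3 => by
      have t : ∀ {x y z : Fin 4}, Odd (p x) → Odd (p y) → Odd (p z) →
          InI (S.MW A X ⊔ m.a * b) ⁅A p x, (curv A - J) p y z⁆ := fun hx hy hz =>
        (Exist.lie_inI (hA' p hp _ hx) (he2 p hp _ _ hy hz)).mono le_sup_right
      rw [Exist.dd2_eq A, Exist.dA2_sub, bianchi, zero_sub]
      exact InC.sub (InC.neg (hJ3 p hp i i' k hi hi' hk h1 h2 h3))
        (InC.add (InC.add (t hi hi' hk) (t hi' hk hi)) (t hk hi hi'))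
  obtain ⟨η, hη, hη1, hη2⟩ := p2_dQ hn he he2 he3
  have hB : In1 (KdQ n) m.a (A - η) := fun p hp i hi =>
    InC.sub (hA' p hp i hi) ((hη1 p hp i hi).mono hba)
  have hd : In1 (KdQ n) b (A - (A - η)) := by rwa [sub_sub_cancel]
  have hab : m.a * b ≤ m.a * S.MW A X ⊔ m.a ^ (j + 2) := by
    rw [hb, Ideal.mul_sup, ← pow_succ']
  have hM : S.MW A X ≤ S.MW (A - η) X ⊔ m.a ^ (j + 2) := by
    refine Exist.nak m.nil (ex_MW_le fun c => ?_)
    have h1 := Exist.lie_inC (hXa c) (H_congr hn hS m hA' hB hd c).at0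
    rw [Exist.at0_sub, Exist.lie_sub'] at h1
    have h2 := InC.add (h1.mono (hab.trans (sup_le le_sup_right (le_sup_right.trans le_sup_left))))
      ((ex_inC_MW S (A - η) X c).mono (le_sup_left.trans le_sup_left))
    rwa [coe_at0U, sub_add_cancel] at h2
  have hab' : m.a * b ≤ S.MW (A - η) X ⊔ m.a ^ (j + 2) :=
    hab.trans (sup_le (Ideal.mul_le_right.trans hM) le_sup_right)
  refine ⟨A - η, hA.sub hη, hB, fun τ l h3 i i' hi hi' => InI.mono (sup_le hM hab') ?_⟩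
  have o1 := (h3.2 i hi).1
  have o2 := (h3.2 i' hi').1
  have a1 := hA' τ h3.mem i o1
  have a2 := hA' τ h3.mem i' o2
  have e1 := hη1 τ h3.mem i o1
  have e2 := hη1 τ h3.mem i' o2
  have k1 := hη2 τ h3.mem i i' o1 o2
  have k2 := hJw τ l h3 i i' hi hi'
  have k3 : InI (S.MW A X ⊔ m.a * b) _ :=
    (Jw_congr hn hS m hX hA' hB hd (b' := ⊥) (X' := X) (fun c => by
      rw [sub_self]
      exact InC.zero) τ l i i').mono (sup_le bot_le le_sup_right)
  have k4 : InI (S.MW A X ⊔ m.a * b) _ := (Exist.lie_inI a1 e2).mono le_sup_right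
  have k5 : InI (S.MW A X ⊔ m.a * b) _ :=
    (Exist.lie_inI e1 a2).mono ((mul_comm b m.a).le.trans le_sup_right)
  have k6 : InI (S.MW A X ⊔ m.a * b) _ := (Exist.lie_inI (e1.mono hba) e2).mono le_sup_right
  have k7 := InC.add (InC.sub (InC.sub (InC.add (InC.add k1 k2) k3) k4) k5) k6
  have e : curv (A - η) τ i i' - S.Jw (A - η) X τ l i i' = (curv A - J - dd1 η) τ i i' +
      (J τ i i' - S.Jw A X τ l i i') + (S.Jw A X τ l i i' - S.Jw (A - η) X τ l i i') -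
      ⁅A τ i, η τ i'⁆ - ⁅η τ i, A τ i'⁆ + ⁅η τ i, η τ i'⁆ := by
    rw [curv_sub]
    simp only [Pi.sub_apply]
    abel
  rw [e]
  exact k7

theorem exists_crit : ∃ A : F1 O, Good1 (KdQ n) A ∧ In1 (KdQ n) m.a A ∧
    S.Crit n A X (S.MW A X) := by
  have h : ∀ j : ℕ, ∃ B : F1 O, Good1 (KdQ n) B ∧ In1 (KdQ n) m.a B ∧ ∀ τ l, Is3 n τ l →
      ∀ i i', i ≠ l → i' ≠ l →
        InI (S.MW B X ⊔ m.a ^ (j + 1)) (curv B τ i i' - S.Jw B X τ l i i') := fun j => by
    induction j with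
    | zero =>
      refine ⟨0, Exist.good_zero _, fun _ _ _ _ => InC.zero, fun τ l _ i i' _ _ => ?_⟩
      rw [Exist.curv_zero, zero_sub, zero_add, pow_one]
      exact InC.neg ((Jw_inI_a hn hS m hX 0 τ l i i').mono le_sup_right)
    | succ j ih =>
      obtain ⟨B, h1, h2, h3⟩ := ih
      exact ex_crit_step hn hS m hX h1 h2 h3
  obtain ⟨k, hk⟩ := m.nil
  obtain ⟨B, h1, h2, h3⟩ := h k
  rw [pow_succ, hk, zero_mul, Ideal.zero_eq_bot, sup_bot_eq] at h3
  exact ⟨B, h1, h2, h3, ex_inC_MW S B X⟩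
end CurveSys

end Vale.Agent.P215Z
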