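import Vale.Agent.P215Z.Frm.Items
import Vale.Agent.P215Z.Frm.Poin

/-!
# P215, walls: passages through a two-cell
-/

noncomputable section
namespace Vale.Agent.P215Z
namespace W0
open MvPolynomial Classical

def sg (s : Bool) : ℤ := if s then 1 else -1

theorem face_self (p : Pt) (k : Fin 4) (c : Bool) : face p k c k = p k + sg c := by
  cases c <;> simp [face, sg, sub_eq_add_neg]

theorem face_ne (p : Pt) {k j : Fin 4} (h : j ≠ k) (c : Bool) : face p k c j = p j := by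
  simp [face, Function.update_of_ne h]

theorem sg_cases (s : Bool) : sg s = 1 ∨ sg s = -1 := by cases s <;> simp [sg]

theorem oQ_cases (τ : Pt) (l : Fin 4) :
    (τ l = 0 ∧ oQ τ l = -1) ∨ (τ l ≠ 0 ∧ oQ τ l = 1) := by
  unfold oQ
  split_ifs with h
  · exact Or.inl ⟨h, rfl⟩
  · exact Or.inr ⟨h, rfl⟩

variable {n : ℕ}

theorem is3_odd {τ : Pt} {l j : Fin 4} (h : Is3 n τ l) (hj : j ≠ l) :
    τ j % 2 = 1 ∧ 0 ≤ τ j ∧ τ j ≤ 2 * n :=
  ⟨Int.odd_iff.1 (h.2 j hj).1, (h.2 j hj).2⟩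

theorem not_is3_face {τ : Pt} {l d l' : Fin 4} (h : Is3 n τ l) (hd : d ≠ l) (s : Bool) :
    ¬ Is3 n (face τ d s) l' := by
  intro h'
  have h1 := h.1
  have h2 := is3_odd h hd
  have h3 := sg_cases s
  by_cases e : l' = l
  · subst e
    have h4 := is3_odd h' hd
    rw [face_self] at h4
    omega
  · have h4 := is3_odd h' (Ne.symm e)
    rw [face_ne _ (Ne.symm hd)] at h4
    omega

theorem isFace_face {p : Pt} {k : Fin 4} (h : Odd (p k)) (c : Bool) : IsFace (face p k c) p := by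
  intro j
  by_cases e : j = k
  · subst e
    refine Or.inr ⟨h, ?_⟩
    rw [face_self, add_sub_cancel_left]
    cases c <;> simp [sg]
  · exact Or.inl (face_ne p e c)

/-- a passage from `τ` through `σ` to `τ'` -/
structure Cr (n : ℕ) (τ σ τ' : Pt) (l d : Fin 4) (s : Bool) (l' d' : Fin 4) (s' : Bool) :
    Prop where
  h : Is3 n τ l
  hd : d ≠ l
  hσ : σ = face τ d s
  h' : Is3 n τ' l'
  hd' : d' ≠ l'
  hσ' : σ = face τ' d' s'
  ne : τ ≠ τ'

namespace Cr

variable {τ σ τ' : Pt} {l d l' d' : Fin 4} {s s' : Bool} (H : Cr n τ σ τ' l d s l' d' s')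
include H

theorem a1 : σ d = τ d + sg s := by rw [H.hσ, face_self]
theorem a2 {j : Fin 4} (h : j ≠ d) : σ j = τ j := by rw [H.hσ, face_ne _ h]
theorem b1 : σ d' = τ' d' + sg s' := by rw [H.hσ', face_self]
theorem b2 {j : Fin 4} (h : j ≠ d') : σ j = τ' j := by rw [H.hσ', face_ne _ h]

theorem odd {j : Fin 4} (h1 : j ≠ l) (h2 : j ≠ d) : σ j % 2 = 1 := by
  rw [H.a2 h2]; exact (is3_odd H.h h1).1

theorem cases : (l' = l ∧ d' = d ∧ sg s' = -sg s ∧ oQ τ' l' = oQ τ l) ∨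
    (l' = d ∧ d' = l ∧ oQ τ' l' = sg s ∧ sg s' = oQ τ l) := by
  have e1 := H.h.1
  have e2 := H.h'.1
  have e3 := is3_odd H.h H.hd
  have e4 := is3_odd H.h' H.hd'
  have e5 := H.a1
  have e6 := H.b1
  have e7 := H.a2 H.hd.symm
  have e8 := H.b2 H.hd'.symm
  have e9 := sg_cases s
  have e10 := sg_cases s'
  have f1 := oQ_cases τ l
  have f2 := oQ_cases τ' l'
  have hd' : d' = l ∨ d' = d := by
    by_contra hc
    have := H.odd (not_or.1 hc).1 (not_or.1 hc).2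
    omega
  have hl' : l' = l ∨ l' = d := by
    by_contra hc
    have := H.odd (not_or.1 hc).1 (not_or.1 hc).2
    omega
  rcases hd' with rfl | rfl
  · rcases hl' with rfl | rfl
    · exact absurd rfl H.hd'
    · exact Or.inr ⟨rfl, rfl, by omega, by omega⟩
  · rcases hl' with rfl | rfl
    · refine Or.inl ⟨rfl, rfl, ?_, by omega⟩
      by_contra hc
      refine H.ne (funext fun j => ?_)
      by_cases e : j = d'
      · subst e; omega
      · rw [← H.a2 e, H.b2 e]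
    · exact absurd rfl H.hd'

omit H in
theorem ar1 {N x y a b u : ℤ} (e1 : a = 0 ∨ a = 2 * N) (e2 : u = 1 ∨ u = -1)
    (e3 : 0 ≤ b - u ∧ b - u ≤ 2 * N) (e4 : 0 ≤ b + u ∧ b + u ≤ 2 * N) (e5 : b % 2 = 0)
    (h2 : -1 ≤ x - a ∧ x - a ≤ 1) (h3 : -1 ≤ y - b ∧ y - b ≤ 1)
    (k0 : x = 0 ∨ x = 2 * N ∨ y = 0 ∨ y = 2 * N) : x = a ∧ (y = b ∨ y = b - u ∨ y = b + u) := by
  omega

omit H in
theorem ar2 {N x y a b u v : ℤ} (e1 : (a = 0 ∧ v = -1) ∨ (a = 2 * N ∧ v = 1))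
    (e2 : (b = 0 ∧ u = -1) ∨ (b = 2 * N ∧ u = 1))
    (g1 : 0 ≤ x ∧ x ≤ 2 * N) (g2 : 0 ≤ y ∧ y ≤ 2 * N)
    (h2 : -1 ≤ x - a ∧ x - a ≤ 1) (h3 : -1 ≤ y - b ∧ y - b ≤ 1)
    (k0 : x = 0 ∨ x = 2 * N ∨ y = 0 ∨ y = 2 * N) :
    (x = a ∧ y = b) ∨ (x = a ∧ y = b - u) ∨ (x = a - v ∧ y = b) := by
  omega

theorem star {θ : Pt} (hθ : θ ∈ KdQ n) (h1 : ∀ j, j ≠ l → j ≠ d → θ j = σ j)
    (h2 : |θ l - σ l| ≤ 1) (h3 : |θ d - σ d| ≤ 1) : θ = σ ∨ θ = τ ∨ θ = τ' := by
  rw [abs_le] at h2 h3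
  have ext : ∀ ρ : Pt, (∀ j, j ≠ l → j ≠ d → ρ j = σ j) → θ l = ρ l → θ d = ρ d → θ = ρ := by
    intro ρ r1 r2 r3
    funext j
    by_cases x : j = l
    · rw [x, r2]
    by_cases y : j = d
    · rw [y, r3]
    rw [h1 j x y, r1 j x y]
  have k0 : θ l = 0 ∨ θ l = 2 * n ∨ θ d = 0 ∨ θ d = 2 * n := by
    obtain ⟨j, hj⟩ := hθ.2
    by_cases x : j = l
    · subst x; omega
    by_cases y : j = d
    · subst y; omega
    have := H.odd x y
    have := h1 j x y
    omega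
  have t0 : θ l = σ l → θ d = σ d → θ = σ := ext σ fun _ _ _ => rfl
  have t1 : θ l = τ l → θ d = τ d → θ = τ := ext τ fun j _ y => (H.a2 y).symm
  have e5 := H.a1
  have e6 := H.b1
  have e7 := H.a2 H.hd.symm
  have e8 := H.b2 H.hd'.symm
  rcases H.cases with ⟨rfl, rfl, c1, c2⟩ | ⟨rfl, rfl, c1, c2⟩
  · have t2 : θ l' = τ' l' → θ d' = τ' d' → θ = τ' := ext τ' fun j _ y => (H.b2 y).symm
    have e3 := is3_odd H.h H.hd
    have e4 := is3_odd H.h' H.hd'
    have e9 := sg_cases s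
    obtain ⟨x, y | y | y⟩ := ar1 (N := n) (u := sg s) (e7 ▸ H.h.1) e9 (by omega) (by omega)
      (by omega) h2 h3 k0
    · exact Or.inl (t0 x y)
    · exact Or.inr (Or.inl (t1 (x.trans e7) (by rw [y, e5]; ring)))
    · exact Or.inr (Or.inr (t2 (x.trans e8) (by rw [y, e6, c1]; ring)))
  · have t2 : θ d' = τ' d' → θ l' = τ' l' → θ = τ' := ext τ' fun j x _ => (H.b2 x).symm
    have f1 : (σ d' = 0 ∧ sg s' = -1) ∨ (σ d' = 2 * n ∧ sg s' = 1) := by
      have := H.h.1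
      have := oQ_cases τ d'
      omega
    have f2 : (σ l' = 0 ∧ sg s = -1) ∨ (σ l' = 2 * n ∧ sg s = 1) := by
      have := H.h'.1
      have := oQ_cases τ' l'
      omega
    rcases ar2 f1 f2 (hθ.1 _) (hθ.1 _) h2 h3 k0 with ⟨x, y⟩ | ⟨x, y⟩ | ⟨x, y⟩
    · exact Or.inl (t0 x y)
    · exact Or.inr (Or.inl (t1 (x.trans e7) (by rw [y, e5]; ring)))
    · exact Or.inr (Or.inr (t2 (by rw [x, e6]; ring) (y.trans e8)))

theorem ne1 : τ ≠ σ := fun e => not_is3_face H.h H.hd s (by rw [← H.hσ, ← e]; exact H.h)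

theorem ne2 : τ' ≠ σ := fun e => not_is3_face H.h' H.hd' s' (by rw [← H.hσ', ← e]; exact H.h')

end Cr

theorem eps4_rot (i j k l : Fin 4) : eps4 i j k l = eps4 k l i j := by
  revert i j k l; decide

theorem eps4_swap (i j k l : Fin 4) : eps4 j i k l = -eps4 i j k l := by
  revert i j k l; decide

theorem ee_self (k : Fin 4) : ee k k = 1 := by simp [ee]

theorem ee_ne {j k : Fin 4} (h : j ≠ k) : ee k j = 0 := by simp [ee, Pi.single_eq_of_ne h]

variable {O : Type} [CommRing O] [Algebra ℚ O]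

/-- the item of a passage -/
def itm (τ σ : Pt) (l d : Fin 4) (s : Bool) (Y : M2 O) : Item O := ⟨σ, l, d, oQ τ l * sg s, Y⟩

namespace Cr

variable {τ σ τ' : Pt} {l d l' d' : Fin 4} {s s' : Bool} (H : Cr n τ σ τ' l d s l' d' s')
  (Y : M2 O)
include H

omit [CommRing O] [Algebra ℚ O] in
theorem valid : (itm τ σ l d s Y).Valid := by
  have e1 := H.h.1
  have e3 := is3_odd H.h H.hd
  have e5 := H.a1
  have e7 := H.a2 H.hd.symm
  have e9 := sg_cases s
  refine ⟨H.hd.symm, Int.even_iff.2 ?_, Int.even_iff.2 ?_, fun j h1 h2 =>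
    Int.odd_iff.2 (H.odd h1 h2)⟩
  · change σ l % 2 = 0
    omega
  · change σ d % 2 = 0
    omega

omit [CommRing O] [Algebra ℚ O] in
theorem star_it {θ : Pt} (hθ : θ ∈ KdQ n) (h : (itm τ σ l d s Y).Star θ) :
    θ = σ ∨ θ = τ ∨ θ = τ' := H.star hθ h.1 h.2.1 h.2.2

omit [CommRing O] [Algebra ℚ O] in
theorem star1 : (itm τ σ l d s Y).Star τ := by
  have e5 := H.a1
  have e7 := H.a2 H.hd.symm
  have e9 := sg_cases s
  refine ⟨fun j _ h => (H.a2 h).symm, abs_le.2 ?_, abs_le.2 ?_⟩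
  · change -1 ≤ τ l - σ l ∧ τ l - σ l ≤ 1
    omega
  · change -1 ≤ τ d - σ d ∧ τ d - σ d ≤ 1
    omega

omit [CommRing O] [Algebra ℚ O] in
theorem star2 : (itm τ σ l d s Y).Star τ' := by
  have e6 := H.b1
  have e8 := H.b2 H.hd'.symm
  have e9 := sg_cases s'
  rcases H.cases with ⟨rfl, rfl, -, -⟩ | ⟨rfl, rfl, -, -⟩
  · refine ⟨fun j _ h => (H.b2 h).symm, abs_le.2 ?_, abs_le.2 ?_⟩
    · change -1 ≤ τ' l' - σ l' ∧ τ' l' - σ l' ≤ 1
      omega
    · change -1 ≤ τ' d' - σ d' ∧ τ' d' - σ d' ≤ 1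
      omega
  · refine ⟨fun j h _ => (H.b2 h).symm, abs_le.2 ?_, abs_le.2 ?_⟩
    · change -1 ≤ τ' d' - σ d' ∧ τ' d' - σ d' ≤ 1
      omega
    · change -1 ≤ τ' l' - σ l' ∧ τ' l' - σ l' ≤ 1
      omega

theorem xi1 (A : F1 O) :
    (itm τ σ l d s Y).xi A τ = Ad (step A σ τ) (Ad (Up A σ) (cst Y)) := by
  have e : Function.update σ l (τ l) = σ := by
    rw [← H.a2 H.hd.symm, Function.update_eq_self]
  change Ad (Up A σ * step A σ (Function.update σ l (τ l)) *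
    step A (Function.update σ l (τ l)) τ) (cst Y) = _
  rw [e, step_self, mul_one, Ad_mul]

theorem xi2 (A : F1 O) :
    (itm τ σ l d s Y).xi A τ' = Ad (step A σ τ') (Ad (Up A σ) (cst Y)) := by
  change Ad (Up A σ * step A σ (Function.update σ l (τ' l)) *
    step A (Function.update σ l (τ' l)) τ') (cst Y) = _
  rcases H.cases with ⟨rfl, rfl, -, -⟩ | ⟨rfl, rfl, -, -⟩
  · have e : Function.update σ l' (τ' l') = σ := by
      rw [← H.b2 H.hd'.symm, Function.update_eq_self]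
    rw [e, step_self, mul_one, Ad_mul]
  · have e : Function.update σ d' (τ' d') = τ' := by
      funext j
      by_cases x : j = d'
      · rw [x, Function.update_self]
      · rw [Function.update_of_ne x, H.b2 x]
    rw [e, step_self, mul_one, Ad_mul]

omit [Algebra ℚ O] H in
theorem hat_eq {θ ρ : Pt} {m : Fin 4} (h : ρ m = θ m) : (hat θ ρ m : RR O) = 1 := by
  unfold hat
  rw [if_neg (by omega), if_neg (by omega)]

omit [Algebra ℚ O] in
theorem J1 (A : F1 O) (i j : Fin 4) : (itm τ σ l d s Y).J A τ i j =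
    ∑ e, (oQ τ l * (σ e - τ e) * eps4 l e i j) •
      (hat τ σ e : RR O) • (itm τ σ l d s Y).xi A τ := by
  rw [Finset.sum_eq_single d (fun e _ he => by rw [H.a2 he, sub_self, mul_zero, zero_mul, zero_smul])
    (fun h => absurd (Finset.mem_univ _) h)]
  unfold Item.J
  rw [if_pos (H.star1 Y)]
  change (oQ τ l * sg s * eps4 i j l d) • (hat τ σ l * hat τ σ d : RR O) • _ = _
  rw [hat_eq (H.a2 H.hd.symm), one_mul, H.a1, add_sub_cancel_left, eps4_rot]

omit [Algebra ℚ O] in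
theorem J2 (A : F1 O) (i j : Fin 4) : (itm τ σ l d s Y).J A τ' i j =
    ∑ e, (oQ τ' l' * (τ' e - σ e) * eps4 l' e i j) •
      (hat τ' σ e : RR O) • (itm τ σ l d s Y).xi A τ' := by
  rw [Finset.sum_eq_single d'
    (fun e _ he => by rw [H.b2 he, sub_self, mul_zero, zero_mul, zero_smul])
    (fun h => absurd (Finset.mem_univ _) h)]
  unfold Item.J
  rw [if_pos (H.star2 Y)]
  change (oQ τ l * sg s * eps4 i j l d) • (hat τ' σ l * hat τ' σ d : RR O) • _ = _
  have e := hat_eq (O := O) (H.b2 H.hd'.symm)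
  have e1 : τ' d' - σ d' = -sg s' := by rw [H.b1]; ring
  rcases H.cases with ⟨rfl, rfl, c1, c2⟩ | ⟨rfl, rfl, c1, c2⟩
  · rw [e, one_mul, e1, c1, c2, neg_neg, eps4_rot]
  · rw [e, mul_one, e1, c1, c2, eps4_rot, eps4_swap d' l']
    congr 1
    ring

omit [Algebra ℚ O] in
theorem J0 (A : F1 O) {θ : Pt} {l0 : Fin 4} (h0 : Is3 n θ l0) (h1 : θ ≠ τ) (h2 : θ ≠ τ')
    (i j : Fin 4) : (itm τ σ l d s Y).J A θ i j = 0 := by
  unfold Item.J
  refine if_neg fun h => ?_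
  rcases H.star_it Y h0.mem h with e | e | e
  · exact not_is3_face H.h H.hd s (by rw [← H.hσ, ← e]; exact h0)
  · exact h1 e
  · exact h2 e

omit [CommRing O] [Algebra ℚ O] H in
theorem inc_eq (θ : Pt) : (itm τ σ l d s Y).inc θ =
    if θ = σ + ee l then -(oQ τ l * sg s) else if θ = σ - ee l then oQ τ l * sg s
    else if θ = σ + ee d then oQ τ l * sg s else if θ = σ - ee d then -(oQ τ l * sg s) else 0 :=
  rfl

omit [CommRing O] [Algebra ℚ O] in
theorem inc0 {θ : Pt} (hθ : θ ∈ KdQ n) (h1 : θ ≠ τ) (h2 : θ ≠ τ') :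
    (itm τ σ l d s Y).inc θ = 0 := by
  have key : ∀ (k : Fin 4) (u : ℤ), (k = l ∨ k = d) → (u = 1 ∨ u = -1) → θ ≠ σ + u • ee k := by
    intro k u hk hu e
    have a : ∀ j, j ≠ k → θ j = σ j := fun j hj => by
      rw [e, Pi.add_apply, Pi.smul_apply, ee_ne hj, smul_zero, add_zero]
    have b : θ k = σ k + u := by
      rw [e, Pi.add_apply, Pi.smul_apply, ee_self, smul_eq_mul, mul_one]
    have c : ∀ j, |θ j - σ j| ≤ 1 := fun j => by
      by_cases x : j = k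
      · rw [x, abs_le]; omega
      · rw [a j x, sub_self, abs_zero]; exact zero_le_one
    rcases H.star hθ (fun j x y => a j (by rcases hk with rfl | rfl <;> assumption)) (c l) (c d)
      with f | f | f
    · rw [f] at b; omega
    · exact h1 f
    · exact h2 f
  rw [inc_eq, if_neg, if_neg, if_neg, if_neg]
  · simpa [sub_eq_add_neg] using key d (-1) (Or.inr rfl) (Or.inr rfl)
  · simpa using key d 1 (Or.inr rfl) (Or.inl rfl)
  · simpa [sub_eq_add_neg] using key l (-1) (Or.inl rfl) (Or.inr rfl)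
  · simpa using key l 1 (Or.inl rfl) (Or.inl rfl)

omit H in
theorem eq_add_iff {θ ρ : Pt} {k m : Fin 4} (h : ∀ j, j ≠ m → ρ j = θ j) :
    (θ = ρ + ee k ↔ k = m ∧ θ m = ρ m + 1) ∧ (θ = ρ - ee k ↔ k = m ∧ θ m = ρ m - 1) := by
  refine ⟨⟨fun e => ?_, fun e => funext fun j => ?_⟩, ⟨fun e => ?_, fun e => funext fun j => ?_⟩⟩
  · have e1 : θ k = ρ k + 1 := by rw [e, Pi.add_apply, ee_self]
    by_cases x : k = m
    · exact ⟨x, x ▸ e1⟩
    · have := h k x
      omega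
  · obtain ⟨rfl, e⟩ := e
    by_cases x : j = k
    · rw [x, Pi.add_apply, ee_self, e]
    · rw [Pi.add_apply, ee_ne x, add_zero, h j x]
  · have e1 : θ k = ρ k - 1 := by rw [e, Pi.sub_apply, ee_self]
    by_cases x : k = m
    · exact ⟨x, x ▸ e1⟩
    · have := h k x
      omega
  · obtain ⟨rfl, e⟩ := e
    by_cases x : j = k
    · rw [x, Pi.sub_apply, ee_self, e]
    · rw [Pi.sub_apply, ee_ne x, sub_zero, h j x]

omit [CommRing O] [Algebra ℚ O] in
theorem inc1 : (itm τ σ l d s Y).inc τ = -oQ τ l := by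
  have e := fun k => eq_add_iff (k := k) fun j (h : j ≠ d) => H.a2 h
  have e5 := H.a1
  have hd := H.hd.symm
  rw [inc_eq]
  simp only [(e _).1, (e _).2, hd, false_and, if_false, true_and]
  rcases sg_cases s with x | x <;> rw [x] at e5 ⊢
  · rw [if_neg (by omega), if_pos (by omega), mul_one]
  · rw [if_pos (by omega), mul_neg, mul_one]

omit [CommRing O] [Algebra ℚ O] in
theorem inc2 : (itm τ σ l d s Y).inc τ' = oQ τ' l' := by
  have e := fun k => eq_add_iff (k := k) fun j (h : j ≠ d') => H.b2 h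
  have e5 := H.b1
  have hd := H.hd
  have hd2 := H.hd.symm
  rw [inc_eq]
  rcases H.cases with ⟨rfl, rfl, c1, c2⟩ | ⟨rfl, rfl, c1, c2⟩
  · simp only [(e _).1, (e _).2, hd2, false_and, if_false, true_and]
    rw [c2]
    rcases sg_cases s with x | x <;> rw [x] at c1 ⊢
    · rw [if_pos (by omega), mul_one]
    · rw [if_neg (by omega), if_pos (by omega), mul_neg, mul_one, neg_neg]
  · simp only [(e _).1, (e _).2, hd, false_and, if_false, true_and]
    rw [c1, ← c2]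
    rcases sg_cases s' with x | x <;> rw [x] at e5 ⊢
    · rw [if_neg (by omega), if_pos (by omega), one_mul]
    · rw [if_pos (by omega), neg_mul, one_mul, neg_neg]

end Cr

end W0
end Vale.Agent.P215Z
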