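import Vale.Agent.P215Z.Wall.Base0
import Vale.Agent.P215Z.Wall.Cross

/-!
# P215, walls: the exact current
-/

noncomputable section
namespace Vale.Agent.P215Z
open MvPolynomial Classical

namespace W0

theorem sum_shift {V : Type} [AddCommGroup V] (f : ℕ → V) (p : ℕ) (h0 : f 0 = 0) (hp : f p = 0) :
    ∑ k ∈ Finset.range p, f k = ∑ k ∈ Finset.range p, f (k + 1) := by
  have h := Finset.sum_range_succ' f p
  rw [Finset.sum_range_succ, h0, hp, add_zero, add_zero] at h
  exact h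

variable {O : Type} [CommRing O] [Algebra ℚ O] {C G : Type} [Fintype C] {S : CurveSys C} {n : ℕ}
  {mk : C → G}

/-- the point number `k` is a two-cell -/
def Tw (S : CurveSys C) (n : ℕ) (c : C) (k : ℕ) : Prop := ¬ ∃ l, Is3 n (S.pt c k) l

omit [Fintype C] in
theorem tw_zero (hS : S.Valid n mk) (c : C) : ¬ Tw S n c 0 := fun h => h (hS.base c)

omit [Fintype C] in
theorem tw_per (hS : S.Valid n mk) (c : C) : ¬ Tw S n c (S.per c) := fun h =>
  h (hS.closed c ▸ hS.base c)

omit [Fintype C] in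
theorem stp_cases (hS : S.Valid n mk) (c : C) {k : ℕ} (hk : k < S.per c) :
    (S.pt c (k + 1) = S.pt c k ∧ ¬ Tw S n c k ∧ ¬ Tw S n c (k + 1)) ∨
      (¬ Tw S n c k ∧ Tw S n c (k + 1)) ∨ (Tw S n c k ∧ ¬ Tw S n c (k + 1)) := by
  rcases hS.stp c k hk with ⟨e, h⟩ | ⟨l, d, s, h, hd, e⟩ | ⟨l, d, s, h, hd, e⟩
  · exact Or.inl ⟨e, fun x => x h, fun x => x (e ▸ h)⟩
  · exact Or.inr (Or.inl ⟨fun x => x ⟨l, h⟩, fun ⟨_, x⟩ => not_is3_face h hd s (e ▸ x)⟩)
  · exact Or.inr (Or.inr ⟨fun ⟨_, x⟩ => not_is3_face h hd s (e ▸ x), fun x => x ⟨l, h⟩⟩)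

omit [Fintype C] in
theorem exists_cr (hS : S.Valid n mk) (c : C) {k : ℕ} (hk : k < S.per c)
    (h : Tw S n c (k + 1)) : k + 1 < S.per c ∧ ∃ l d s l' d' s',
      Cr n (S.pt c k) (S.pt c (k + 1)) (S.pt c (k + 2)) l d s l' d' s' := by
  have hk' : k + 1 < S.per c := lt_of_le_of_ne hk fun e => tw_per hS c (e ▸ h)
  refine ⟨hk', ?_⟩
  rcases hS.stp c k hk with ⟨e, x⟩ | ⟨l, d, s, x, hd, e⟩ | ⟨l, _, _, x, -⟩
  · exact absurd (e ▸ x) h
  · rcases hS.stp c (k + 1) hk' with ⟨-, y⟩ | ⟨l', _, _, y, -⟩ | ⟨l', d', s', y, hd', e'⟩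
    · exact absurd y h
    · exact absurd ⟨l', y⟩ h
    · exact ⟨l, d, s, l', d', s', x, hd, e, y, hd', e', hS.thru c k hk' h⟩
  · exact absurd ⟨l, x⟩ h

omit [Algebra ℚ O] [Fintype C] in
theorem xi_succ (A : F1 O) (X : C → M2 O) (c : C) (k : ℕ) :
    S.xi A X c (k + 1) = Ad (step A (S.pt c k) (S.pt c (k + 1))) (S.xi A X c k) := by
  unfold CurveSys.xi CurveSys.G
  rw [← Ad_mul, mul_assoc]
  rfl

theorem Ad_sub' {B : Type} [Ring B] (g : Bˣ) (x y : B) : Ad g (x - y) = Ad g x - Ad g y := by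
  unfold Ad
  rw [mul_sub, sub_mul]

theorem Ad_one' {B : Type} [Ring B] (x : B) : Ad 1 x = x := by simp [Ad]

/-- constant units -/
def cstU (g : (M2 O)ˣ) : (MM O)ˣ :=
  Units.map (RingHom.mapMatrix (m := Fin 2) (MvPolynomial.C : O →+* RR O)).toMonoidHom g

theorem Ad_cst (g : (MM O)ˣ) (x : M2 O) :
    Ad (cstU (at0U g)) (cst x) = cst (at0 (Ad g (cst x))) := by
  have h1 : ∀ y z : M2 O, cst (y * z) = cst y * cst z := fun y z =>
    map_mul (RingHom.mapMatrix (m := Fin 2) (MvPolynomial.C : O →+* RR O)) y z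
  unfold Ad
  rw [at0_mul, at0_mul, at0_cst, h1, h1]
  rfl

theorem inI_Ad_sub {b i : Ideal O} (hi : i * i = ⊥) {x : MM O} (hx : InI i x) {g g' : (MM O)ˣ}
    (h : InI (b ⊔ i) ((g : MM O) - g')) : InI (i * b) (Ad g x - Ad g' x) := by
  rw [inI_iff, Ideal.map_mul]
  refine InC.Ad_sub (by rw [← Ideal.map_mul, hi, Ideal.map_bot]) hx ?_
  rwa [inI_iff, Ideal.map_sup] at h

/-- the two halves of the terms of the current -/
def TA (S : CurveSys C) (A : F1 O) (X : C → M2 O) (τ : Pt) (l i j : Fin 4) (c : C) (k : ℕ) :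
    MM O :=
  ∑ d, (oQ τ l * (S.pt c (k + 1) d - S.pt c k d) * eps4 l d i j) •
    (if S.pt c k = τ then (hat τ (S.pt c (k + 1)) d : RR O) • S.xi A X c k else 0)

def TB (S : CurveSys C) (A : F1 O) (X : C → M2 O) (τ : Pt) (l i j : Fin 4) (c : C) (k : ℕ) :
    MM O :=
  ∑ d, (oQ τ l * (S.pt c (k + 1) d - S.pt c k d) * eps4 l d i j) •
    (if S.pt c (k + 1) = τ then (hat τ (S.pt c k) d : RR O) • S.xi A X c (k + 1) else 0)

omit [Algebra ℚ O] in
theorem Jw_eq (hS : S.Valid n mk) (A : F1 O) (X : C → M2 O) {τ : Pt} {l : Fin 4} (h : Is3 n τ l)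
    (i j : Fin 4) : S.Jw A X τ l i j = ∑ c, ∑ k ∈ Finset.range (S.per c),
      if Tw S n c (k + 1) then TA S A X τ l i j c k + TB S A X τ l i j c (k + 1) else 0 := by
  unfold CurveSys.Jw
  refine Finset.sum_congr rfl fun c _ => ?_
  have h1 := sum_shift (fun k => if Tw S n c k then TB S A X τ l i j c k else 0) (S.per c)
    (if_neg (tw_zero hS c)) (if_neg (tw_per hS c))
  have h2 : ∀ k, (if Tw S n c (k + 1) then TA S A X τ l i j c k + TB S A X τ l i j c (k + 1)
      else 0) = (if Tw S n c (k + 1) then TA S A X τ l i j c k else 0) +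
        if Tw S n c (k + 1) then TB S A X τ l i j c (k + 1) else 0 := fun k => by
    split_ifs
    · rfl
    · rw [add_zero]
  simp only [h2]
  rw [Finset.sum_add_distrib, ← h1, ← Finset.sum_add_distrib]
  refine Finset.sum_congr rfl fun k hk => ?_
  have ne : ∀ k, Tw S n c k → S.pt c k ≠ τ := fun k x e => x ⟨l, e ▸ h⟩
  rcases stp_cases hS c (Finset.mem_range.1 hk) with ⟨e, x, y⟩ | ⟨x, y⟩ | ⟨x, y⟩
  · rw [if_neg x, if_neg y, add_zero]
    exact Finset.sum_eq_zero fun d _ => by rw [e, sub_self, mul_zero, zero_mul, zero_smul]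
  · rw [if_neg x, if_pos y, add_zero]
    exact Finset.sum_congr rfl fun d _ => by rw [if_neg (ne _ y), add_zero]
  · rw [if_pos x, if_neg y, zero_add]
    exact Finset.sum_congr rfl fun d _ => by rw [if_neg (ne _ x), zero_add]

omit [Fintype C] in
theorem tele (hS : S.Valid n mk) (A : F1 O) (X : C → M2 O) {τ : Pt} {l : Fin 4} (h : Is3 n τ l)
    (c : C) {g : ℕ → MM O} (hg : ∀ k, g k = if S.pt c k = τ then S.xi A X c k else 0) :
    ∑ k ∈ Finset.range (S.per c), (if Tw S n c (k + 1) then g (k + 2) - g k else 0) =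
      g (S.per c) - g 0 := by
  have h1 := sum_shift (fun k => if Tw S n c k then g (k + 1) else 0) (S.per c)
    (if_neg (tw_zero hS c)) (if_neg (tw_per hS c))
  have h2 : ∀ k, (if Tw S n c (k + 1) then g (k + 2) - g k else 0) =
      (if Tw S n c (k + 1) then g (k + 1 + 1) else 0) -
        if Tw S n c (k + 1) then g k else 0 := fun k => by
    split_ifs
    · rfl
    · rw [sub_zero]
  simp only [h2]
  rw [Finset.sum_sub_distrib, ← h1, ← Finset.sum_sub_distrib, ← Finset.sum_range_sub]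
  refine Finset.sum_congr rfl fun k hk => ?_
  have ne : ∀ k, Tw S n c k → g k = 0 := fun k x => by
    rw [hg, if_neg fun e : S.pt c k = τ => x ⟨l, e ▸ h⟩]
  rcases stp_cases hS c (Finset.mem_range.1 hk) with ⟨e, x, y⟩ | ⟨x, y⟩ | ⟨x, y⟩
  · rw [if_neg x, if_neg y, hg, hg, xi_succ, e, step_self, Ad_one', sub_self, sub_self]
  · rw [if_neg x, if_pos y, ne _ y]
  · rw [if_pos x, if_neg y, ne _ x]

end W0

namespace CurveSys
open W0
variable {O : Type} [CommRing O] [Algebra ℚ O] {C G : Type} [Fintype C] {S : CurveSys C} {n : ℕ}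
  {mk : C → G} (hn : 0 < n) (hS : S.Valid n mk) (m : Marked O G) {X : C → M2 O}
  (hX : ∀ c, InC (m.ii (mk c)) (X c)) {A : F1 O} (hA : Good1 (KdQ n) A) (hA' : In1 (KdQ n) m.a A)

include hn hS

variable {b : Ideal O} (hF : ∀ τ l, Is3 n τ l → ∀ i j, i ≠ l → j ≠ l →
    InI b (curv A τ i j - S.Jw A X τ l i j))
include hX hA hA' hF

theorem xi_shift (c : C) {k : ℕ} (hk : k ≤ S.per c) :
    InI (m.a * b) (Ad (Up A (S.pt c k)) (cst (at0 (S.xi A X c k))) - S.xi A X c k) := by
  have h := G_shift hn hS m hX hA hA' hF c hk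
  have h1 := inI_Ad_sub (m.sq (mk c)) ((inI_cst _ _).2 (hX c)) (g := S.G A c k)
    (g' := cstU (at0U (S.G A c k)) * Up A (S.pt c k)) h
  rw [Ad_mul, Ad_cst] at h1
  have h2 := InC.neg ((inI_iff _ _).1 (h1.mono (Ideal.mul_mono_left (m.le _))))
  rw [neg_sub] at h2
  exact h2

theorem xi_closed {M : Ideal O} (hM : ∀ c, InC M ⁅X c, (at0U (S.H A c) : M2 O)⁆) (c : C) :
    InI (M ⊔ m.a * b) (S.xi A X c (S.per c) - S.xi A X c 0) := by
  have e : S.G A c (S.per c) = S.H A c * S.G A c 0 := by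
    unfold H
    rw [show S.G A c 0 = S.whis A c from mul_one _, inv_mul_cancel_right]
  unfold xi
  rw [e, Ad_mul, ← Ad_sub']
  refine InC.Ad ?_ _
  have h1 := inI_Ad_sub (m.sq (mk c)) ((inI_cst _ _).2 (hX c)) (g := S.H A c)
    (g' := cstU (at0U (S.H A c))) (H_shift hn hS m hX hA hA' hF c)
  have h2 : InI M (Ad (cstU (at0U (S.H A c))) (cst (X c)) - cst (X c)) := by
    have h3 : Ad (cstU (at0U (S.H A c))) (cst (X c)) - cst (X c) =
        ↑(cstU (at0U (S.H A c)))⁻¹ * cst ⁅X c, (at0U (S.H A c) : M2 O)⁆ := by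
      have h4 : cst ⁅X c, (at0U (S.H A c) : M2 O)⁆ =
          cst (X c) * cstU (at0U (S.H A c)) - cstU (at0U (S.H A c)) * cst (X c) := by
        let f := RingHom.mapMatrix (m := Fin 2) (MvPolynomial.C : O →+* RR O)
        change f (_ * _ - _ * _) = f _ * f _ - f _ * f _
        rw [map_sub, map_mul, map_mul]
      rw [h4, mul_sub, Units.inv_mul_cancel_left, Ad, mul_assoc]
    rw [h3]
    exact InC.mul_left ((inI_cst _ _).2 (hM c)) _
  have h5 := InC.add ((inI_iff _ _).1 (h1.mono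
    ((Ideal.mul_mono_left (m.le _)).trans (le_sup_right (a := M)))))
    ((inI_iff _ _).1 (h2.mono le_sup_left))
  rwa [sub_add_sub_cancel] at h5

/-- an exactly compatible current, closed modulo the obstruction ideal -/
theorem exists_J {M : Ideal O} (hM : ∀ c, InC M ⁅X c, (at0U (S.H A c) : M2 O)⁆) :
    ∃ J : F2 O, Good2 (KdQ n) J ∧ In2 (KdQ n) m.a J ∧ In3 (KdQ n) (M ⊔ m.a * b) (dA2 A J) ∧
      ∀ τ l, Is3 n τ l → ∀ i j, i ≠ l → j ≠ l →
        InI (M ⊔ m.a * b) (J τ i j - S.Jw A X τ l i j) := by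
  have hit : ∀ c k, k < S.per c → ∃ it : Item O, it.Y = at0 (S.xi A X c (k + 1)) ∧
      ((¬ Tw S n c (k + 1) ∧ it.o = 0) ∨ (Tw S n c (k + 1) ∧ k + 1 < S.per c ∧ ∃ l d s l' d' s',
        Cr n (S.pt c k) (S.pt c (k + 1)) (S.pt c (k + 2)) l d s l' d' s' ∧
        it = itm (S.pt c k) (S.pt c (k + 1)) l d s (at0 (S.xi A X c (k + 1))))) := by
    intro c k hk
    by_cases h : Tw S n c (k + 1)
    · obtain ⟨h1, l, d, s, l', d', s', H⟩ := exists_cr hS c hk h
      exact ⟨_, rfl, Or.inr ⟨h, h1, l, d, s, l', d', s', H, rfl⟩⟩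
    · exact ⟨⟨0, 0, 0, 0, _⟩, rfl, Or.inl ⟨h, rfl⟩⟩
  choose it hY hit using hit
  let itx : (Σ c, Fin (S.per c)) → Item O := fun x => it x.1 x.2 x.2.2
  have hYi : ∀ x, InC (m.ii (mk x.1)) (itx x).Y := fun x => by
    change InC _ (it x.1 x.2 x.2.2).Y
    rw [hY]
    exact InI.at0 (InC.Ad ((inI_cst _ _).2 (hX x.1)) _)
  have hsum : ∀ (I : Ideal O) (f : (Σ c, Fin (S.per c)) → MM O) (g : C → ℕ → MM O),
      (∀ x, InI I (f x - g x.1 x.2)) →
      InI I (∑ x, f x - ∑ c, ∑ k ∈ Finset.range (S.per c), g c k) := by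
    intro I f g h
    have e : ∑ c, ∑ k ∈ Finset.range (S.per c), g c k =
        ∑ x : Σ c, Fin (S.per c), g x.1 x.2 := by
      rw [Fintype.sum_sigma]
      exact Finset.sum_congr rfl fun c _ => (Fin.sum_univ_eq_sum_range _ _).symm
    rw [e, ← Finset.sum_sub_distrib]
    exact InC.sum _ _ fun x _ => h x
  have hx : ∀ c k, k + 1 < S.per c → ∀ {l d s l' d' s'},
      Cr n (S.pt c k) (S.pt c (k + 1)) (S.pt c (k + 2)) l d s l' d' s' →
      InI (m.a * b) ((itm (S.pt c k) (S.pt c (k + 1)) l d s (at0 (S.xi A X c (k + 1)))).xi A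
        (S.pt c k) - S.xi A X c k) ∧
      InI (m.a * b) ((itm (S.pt c k) (S.pt c (k + 1)) l d s (at0 (S.xi A X c (k + 1)))).xi A
        (S.pt c (k + 2)) - S.xi A X c (k + 2)) := by
    intro c k hk l d s l' d' s' H
    have h := xi_shift hn hS m hX hA hA' hF c hk.le
    have e : S.xi A X c k = Ad (step A (S.pt c (k + 1)) (S.pt c k)) (S.xi A X c (k + 1)) := by
      rw [xi_succ, ← Ad_mul, step_symm A (S.pt c k), mul_inv_cancel, Ad_one']
    refine ⟨?_, ?_⟩
    · rw [H.xi1]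
      conv => enter [2, 2]; rw [e]
      rw [← Ad_sub']
      exact InC.Ad h _
    · rw [H.xi2, xi_succ A X c (k + 1), ← Ad_sub']
      exact InC.Ad h _
  refine ⟨JJ A itx, Good2.sum _ _ fun x _ => ?_, fun p _ i j _ _ => ?_,
    fun p hp i j k h1 h2 h3 h4 h5 h6 => (JJ_closed m.nil (cx_KdQ n) hA hA' itx (fun x => mk x.1)
      m.ii m.sq m.le (b := b) (c := M ⊔ m.a * b) (fun x h => ?_) hYi (fun x h τ hτ hs => ?_)
      (fun θ hθ => ?_) p hp i j k h1 h2 h3 h4 h5 h6).mono (sup_le le_rfl le_sup_right),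
    fun τ l h i j _ _ => ?_⟩
  · rcases hit x.1 x.2 x.2.2 with ⟨-, h⟩ | ⟨-, -, l, d, s, l', d', s', H, e⟩
    · rw [Item.J_of_o A (itx x) h]
      exact ⟨fun _ _ _ _ _ _ => neg_zero.symm, fun _ _ _ _ _ _ _ _ => by simp [pd],
        fun _ _ _ _ _ _ _ _ _ _ _ => by simp [evM]⟩
    · exact Item.J_good m.nil (cx_KdQ n) hA hA' _ (show (it _ _ _).Valid from e ▸ H.valid _)
  · unfold JJ
    rw [Finset.sum_apply, Finset.sum_apply, Finset.sum_apply]
    exact InC.sum _ _ fun x _ => (Item.J_inI A _ (hYi x) p i j).mono (m.le _)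
  · rcases hit x.1 x.2 x.2.2 with ⟨-, h0⟩ | ⟨-, -, l, d, s, l', d', s', H, e⟩
    · exact absurd h0 h
    · exact show (it _ _ _).Valid from e ▸ H.valid _
  · rcases hit x.1 x.2 x.2.2 with ⟨-, h0⟩ | ⟨-, hk, l, d, s, l', d', s', H, e⟩
    · exact absurd h0 h
    · have f1 := flatAt_pt hn hS m hX hA hA' hF x.1 x.2.2.le H.h
      have hs' : (it x.1 x.2 x.2.2).Star τ := hs
      rw [e] at hs'
      rcases H.star_it _ hτ hs' with rfl | rfl | rfl
      · refine FlatAt.face (cx_KdQ n) hA H.h.mem f1 ?_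
        rw [H.hσ]
        exact isFace_face (H.h.2 d H.hd).1 s
      · exact f1
      · exact flatAt_pt hn hS m hX hA hA' hF x.1 hk H.h'
  · by_cases h3 : ∃ l, Is3 n θ l
    · obtain ⟨l0, h0⟩ := h3
      let g : C → ℕ → MM O := fun c k => if S.pt c k = θ then S.xi A X c k else 0
      have h1 := hsum (m.a * b) (fun x => (itx x).inc θ • (itx x).xi A θ)
        (fun c k => oQ θ l0 • if Tw S n c (k + 1) then g c (k + 2) - g c k else 0) fun x => by
        change InI _ ((it x.1 x.2 x.2.2).inc θ • (it x.1 x.2 x.2.2).xi A θ - _)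
        rcases hit x.1 x.2 x.2.2 with ⟨h1, h2⟩ | ⟨h1, hk, l, d, s, l', d', s', H, e⟩
        · have : (it x.1 x.2 x.2.2).inc θ = 0 := by simp [Item.inc, h2]
          rw [this, if_neg h1, zero_smul, smul_zero, sub_zero]
          exact InC.zero
        · rw [if_pos h1, e]
          by_cases e1 : S.pt x.1 x.2 = θ
          · subst e1
            have e2 := h0.unique H.h
            subst e2
            simp only [g, if_neg H.ne.symm, if_true]
            rw [H.inc1, zero_sub, smul_neg, ← neg_smul, ← smul_sub]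
            exact InC.zsmul (hx _ _ hk H).1 _
          by_cases e2 : S.pt x.1 (x.2 + 2) = θ
          · subst e2
            have e3 := h0.unique H.h'
            subst e3
            simp only [g, if_neg H.ne, if_true]
            rw [H.inc2, sub_zero, ← smul_sub]
            exact InC.zsmul (hx _ _ hk H).2 _
          simp only [g, if_neg e1, if_neg e2]
          rw [H.inc0 _ hθ (Ne.symm e1) (Ne.symm e2), zero_smul, sub_zero, smul_zero, sub_zero]
          exact InC.zero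
      have h2 : InI (M ⊔ m.a * b) (∑ c, ∑ k ∈ Finset.range (S.per c),
          oQ θ l0 • if Tw S n c (k + 1) then g c (k + 2) - g c k else 0) := by
        refine InC.sum _ _ fun c _ => ?_
        rw [← Finset.smul_sum, tele hS A X h0 c (g := g c) fun _ => rfl]
        refine InC.zsmul ?_ _
        simp only [g, hS.closed c]
        split_ifs
        · exact xi_closed hn hS m hX hA hA' hF hM c
        · rw [sub_zero]; exact InC.zero
      have h3 := InC.add ((inI_iff _ _).1 (h1.mono (le_sup_right (a := M)))) h2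
      rwa [sub_add_cancel] at h3
    · refine InC.sum _ _ fun x _ => ?_
      have : (itx x).inc θ = 0 := by
        change (it x.1 x.2 x.2.2).inc θ = 0
        rcases hit x.1 x.2 x.2.2 with ⟨-, h2⟩ | ⟨-, -, l, d, s, l', d', s', H, e⟩
        · simp [Item.inc, h2]
        · rw [e]
          exact H.inc0 _ hθ (fun e => h3 ⟨l, e ▸ H.h⟩) fun e => h3 ⟨l', e ▸ H.h'⟩
      rw [this, zero_smul]
      exact InC.zero
  · rw [Jw_eq hS A X h]
    unfold JJ
    rw [Finset.sum_apply, Finset.sum_apply, Finset.sum_apply]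
    refine (hsum (m.a * b) (fun x => (itx x).J A τ i j) _ fun x => ?_).mono le_sup_right
    change InI _ ((it x.1 x.2 x.2.2).J A τ i j - _)
    rcases hit x.1 x.2 x.2.2 with ⟨h1, h2⟩ | ⟨h1, hk, l1, d, s, l', d', s', H, e⟩
    · rw [Item.J_of_o A _ h2, if_neg h1, sub_zero]
      exact InC.zero
    · rw [if_pos h1, e]
      unfold TA TB
      by_cases e1 : S.pt x.1 x.2 = τ
      · subst e1
        have e2 := h.unique H.h
        subst e2
        simp only [if_neg H.ne.symm, if_true, smul_zero, Finset.sum_const_zero, add_zero]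
        rw [H.J1, ← Finset.sum_sub_distrib]
        refine InC.sum _ _ fun d _ => ?_
        rw [← smul_sub, ← smul_sub]
        exact InC.zsmul (InC.smul (hx _ _ hk H).1 _) _
      by_cases e2 : S.pt x.1 (x.2 + 2) = τ
      · subst e2
        have e3 := h.unique H.h'
        subst e3
        simp only [if_neg H.ne, if_true, smul_zero, Finset.sum_const_zero, zero_add]
        rw [H.J2, ← Finset.sum_sub_distrib]
        refine InC.sum _ _ fun d _ => ?_
        rw [← smul_sub, ← smul_sub]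
        exact InC.zsmul (InC.smul (hx _ _ hk H).2 _) _
      simp only [if_neg e1, if_neg e2, smul_zero, Finset.sum_const_zero, add_zero]
      rw [H.J0 _ A h (Ne.symm e1) (Ne.symm e2), sub_zero]
      exact InC.zero

end CurveSys

end Vale.Agent.P215Z
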