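import Vale.Agent.P215Z.Frm.Items
import Vale.Agent.P215Z.Frm.Poin

noncomputable section
namespace Vale.Agent.P215Z
open MvPolynomial Classical

set_option linter.unusedSectionVars false

namespace Base0
variable {O : Type} [CommRing O] [Algebra ℚ O]

theorem isFace_self (p : Pt) : IsFace p p := fun _ => Or.inl rfl

theorem isFace_face {p : Pt} {k : Fin 4} (h : Odd (p k)) (c : Bool) : IsFace (face p k c) p :=
  fun j => by
    by_cases hj : j = k
    · subst hj
      refine Or.inr ⟨h, ?_⟩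
      rw [face_self]
      cases c <;> simp
    · exact Or.inl (face_ne hj)

theorem face_sub (p : Pt) (k : Fin 4) (c : Bool) :
    face p k c - p = ee k ∨ face p k c - p = -ee k := by
  cases c
  · refine Or.inr (funext fun j => ?_)
    by_cases hj : j = k
    · subst hj
      simp [face, ee]
    · simp [face, ee, hj]
  · refine Or.inl (funext fun j => ?_)
    by_cases hj : j = k
    · subst hj
      simp [face, ee]
    · simp [face, ee, hj]

theorem adj_face (p : Pt) (k : Fin 4) (c : Bool) : Adj p (face p k c) := Or.inr ⟨k, face_sub p k c⟩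

theorem adj_face' (p : Pt) (k : Fin 4) (c : Bool) : Adj (face p k c) p :=
  Or.inr ⟨k, by
    rw [← neg_sub]
    rcases face_sub p k c with h | h <;> rw [h]
    · exact Or.inr rfl
    · exact Or.inl (neg_neg _)⟩

theorem ne_of_odd {n : ℕ} {τ : Pt} {l i : Fin 4} (h : Is3 n τ l) (hi : Odd (τ i)) : i ≠ l := by
  rintro rfl
  rcases h.1 with h1 | h1 <;> rw [h1] at hi
  · exact absurd hi (by decide)
  · exact (Int.not_odd_iff_even.2 (even_two_mul _)) hi

theorem cst_mul (x y : M2 O) : cst (x * y) = cst x * cst y := Matrix.map_mul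

theorem cst_one : cst (1 : M2 O) = 1 := Matrix.map_one _ (map_zero _) (map_one _)

theorem cst_sub (x y : M2 O) : cst (x - y) = cst x - cst y := by
  ext i j
  simp [cst]

theorem at0_sub (x y : MM O) : at0 (x - y) = at0 x - at0 y := by
  ext i j
  simp [at0]

theorem inI_at0 {b : Ideal O} {x : MM O} {y : M2 O} (h : InI b (x - cst y)) :
    InI b (x - cst (at0 x)) := by
  have h1 := (inI_cst b _).2 h.at0
  rw [at0_sub, at0_cst, cst_sub] at h1
  have h2 := InC.sub h h1
  rwa [sub_sub_sub_cancel_right] at h2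

theorem inv_cst {g : (MM O)ˣ} (h : (g : MM O) = cst (at0 (g : MM O))) :
    (↑g⁻¹ : MM O) = cst (↑(at0U g)⁻¹ : M2 O) :=
  Units.inv_eq_of_mul_eq_one_right (by rw [h, ← cst_mul, ← coe_at0U, Units.mul_inv, cst_one])

theorem Ad_congr {a b b' : Ideal O} {x x' : MM O} (hx : InI a x) (hx' : InI b' (x - x'))
    {g g' : (MM O)ˣ} (h : InI b ((g : MM O) - g')) : InI (b' ⊔ a * b) (Ad g x - Ad g' x') := by
  have h1 : InI (b' ⊔ a * b) _ := InI.mono ((mul_comm b a).le.trans le_sup_right)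
    (InC.mul_right (InI.mul (InC.inv_sub h) hx) (g : MM O))
  have h2 : InI (b' ⊔ a * b) _ := InI.mono le_sup_right
    (InC.mul_left (hx.mul h) (↑g'⁻¹ : MM O))
  have h3 : InI (b' ⊔ a * b) _ := InI.mono le_sup_left (InC.Ad hx' g')
  have e : Ad g x - Ad g' x' = ((↑g⁻¹ : MM O) - ↑g'⁻¹) * x * g + ↑g'⁻¹ * (x * (g - g')) +
      Ad g' (x - x') := by
    simp only [Ad]
    noncomm_ring
  rw [e]
  exact InC.add (InC.add h1 h2) h3

end Base0

namespace CurveSys
variable {O : Type} [CommRing O] [Algebra ℚ O] {C G : Type} [Fintype C] {S : CurveSys C} {n : ℕ}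
  {mk : C → G} (hn : 0 < n) (hS : S.Valid n mk) (m : Marked O G) {X : C → M2 O}
  (hX : ∀ c, InC (m.ii (mk c)) (X c)) {A : F1 O} (hA : Good1 (KdQ n) A) (hA' : In1 (KdQ n) m.a A)

/-- membership of the current from membership of the transported values -/
theorem Jw_inI_of (S : CurveSys C) (A : F1 O) (X : C → M2 O) {b : Ideal O} (τ : Pt)
    (h : ∀ c, ∀ k ≤ S.per c, S.pt c k = τ → InC b (X c)) (l i j : Fin 4) :
    InI b (S.Jw A X τ l i j) := by
  have t : ∀ c, ∀ k ≤ S.per c, ∀ f : RR O,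
      InI b (if S.pt c k = τ then f • S.xi A X c k else 0) := fun c k hk f => by
    split_ifs with e
    · exact InC.smul (InC.Ad ((inI_cst b _).2 (h c k hk e)) _) f
    · exact InC.zero
  refine InC.sum _ _ fun c _ => InC.sum _ _ fun k hk => InC.sum _ _ fun d _ => InC.zsmul ?_ _
  have hk' := Finset.mem_range.1 hk
  exact InC.add (t c k hk'.le _) (t c (k + 1) hk' _)

/-! W0: basic facts, the exact current -/
include hn hS
theorem pt_mem (c : C) {k : ℕ} (hk : k ≤ S.per c) : S.pt c k ∈ KdQ n := by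
  rcases hk.eq_or_lt with rfl | hk
  · obtain ⟨l, h⟩ := hS.base c
    rw [hS.closed]
    exact h.mem
  · rcases hS.stp c k hk with ⟨-, l, h⟩ | ⟨l, d, s, h, -, -⟩ | ⟨l, d, s, h, hd, e⟩
    · exact h.mem
    · exact h.mem
    · rw [e]
      exact cx_KdQ n _ h.mem d s (h.2 d hd).1
theorem adj_pt (c : C) {k : ℕ} (hk : k < S.per c) : Adj (S.pt c k) (S.pt c (k + 1)) := by
  rcases hS.stp c k hk with ⟨e, -⟩ | ⟨l, d, s, -, -, e⟩ | ⟨l, d, s, -, -, e⟩
  · exact Or.inl (by rw [e, sub_self])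
  · rw [e]
    exact Base0.adj_face _ d s
  · rw [e]
    exact Base0.adj_face' _ d s
theorem sep_le {c c' : C} {k k' : ℕ} (hk : k ≤ S.per c) (hk' : k' ≤ S.per c')
    (h : S.pt c k = S.pt c' k') : mk c = mk c' := by
  have t : ∀ c, ∀ k ≤ S.per c, ∃ k₀ < S.per c, S.pt c k₀ = S.pt c k := fun c k hk => by
    rcases hk.eq_or_lt with rfl | hk
    · exact ⟨0, hS.per_pos c, (hS.closed c).symm⟩
    · exact ⟨k, hk, rfl⟩
  obtain ⟨j, hj, e⟩ := t c k hk
  obtain ⟨j', hj', e'⟩ := t c' k' hk'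
  exact hS.sep c c' j j' hj hj' (by rw [e, e', h])
include hX in
/-- the current on a three-cell through which the curve `c` passes has the mark of `c` -/
theorem Jw_inI (A : F1 O) (c : C) {k : ℕ} (hk : k ≤ S.per c) (l i j : Fin 4) :
    InI (m.ii (mk c)) (S.Jw A X (S.pt c k) l i j) :=
  Jw_inI_of S A X _ (fun c' _ hk' e => sep_le hn hS hk' hk e ▸ hX c') l i j
include hX in
theorem Jw_inI_a (A : F1 O) (τ : Pt) (l i j : Fin 4) : InI m.a (S.Jw A X τ l i j) :=
  Jw_inI_of S A X _ (fun c _ _ _ => (hX c).mono (m.le _)) l i j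
include hA' in
theorem G_mem (c : C) {k : ℕ} (hk : k ≤ S.per c) : S.G A c k ∈ UG m.a := by
  induction k with
  | zero =>
    exact mul_mem (mul_mem (holL_pe_mem m.nil (cx_KdQ n) hA' _ (hS.prim_chain c))
      (Up_mem m.nil (cx_KdQ n) hA' (pt_mem hn hS c hk))) (one_mem _)
  | succ k ih =>
    have h := mul_mem (ih (by omega))
      (step_mem m.nil hA' (pt_mem hn hS c (k := k) (by omega)) (pt_mem hn hS c hk))
    rwa [CurveSys.G, mul_assoc] at h
include hA' in
theorem H_mem (c : C) : S.H A c ∈ UG m.a := by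
  have h := G_mem hn hS m hA' c (Nat.zero_le _)
  rw [CurveSys.G, holN, mul_one] at h
  exact mul_mem (G_mem hn hS m hA' c le_rfl) (inv_mem h)
include hA' in
theorem G_congr {A' : F1 O} (hB : In1 (KdQ n) m.a A') {b : Ideal O} (h : In1 (KdQ n) b (A - A'))
    (c : C) {k : ℕ} (hk : k ≤ S.per c) : InI b ((S.G A c k : MM O) - S.G A' c k) :=
  InC.mul_sub (InC.mul_sub (holL_pe_congr m.nil (cx_KdQ n) hA' hB h _ (hS.prim_chain c))
    (Up_congr m.nil (cx_KdQ n) hA' hB h (pt_mem hn hS c (Nat.zero_le _))))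
    (holN_congr m.nil hA' hB h _ k fun _ hi => pt_mem hn hS c (hi.trans hk))
include hA' in
theorem H_congr {A' : F1 O} (hB : In1 (KdQ n) m.a A') {b : Ideal O} (h : In1 (KdQ n) b (A - A'))
    (c : C) : InI b ((S.H A c : MM O) - S.H A' c) := by
  have h1 := G_congr hn hS m hA' hB h c (Nat.zero_le _)
  simp only [CurveSys.G, holN, mul_one] at h1
  exact InC.mul_sub (G_congr hn hS m hA' hB h c le_rfl) (InC.inv_sub h1)
include hA' hX in
theorem Jw_congr {A' : F1 O} (hB : In1 (KdQ n) m.a A') {b b' : Ideal O}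
    (h : In1 (KdQ n) b (A - A')) {X' : C → M2 O} (hX' : ∀ c, InC b' (X c - X' c)) (τ : Pt)
    (l i j : Fin 4) : InI (b' ⊔ m.a * b) (S.Jw A X τ l i j - S.Jw A' X' τ l i j) := by
  have t : ∀ c, ∀ k ≤ S.per c, ∀ (f : RR O) (P : Prop) [Decidable P], InI (b' ⊔ m.a * b)
      ((if P then f • S.xi A X c k else 0) - if P then f • S.xi A' X' c k else 0) :=
    fun c k hk f P _ => by
      split_ifs
      · rw [← smul_sub]
        refine InC.smul (Base0.Ad_congr ((inI_cst _ _).2 ((hX c).mono (m.le _))) ?_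
          (G_congr hn hS m hA' hB h c hk)) f
        rw [← Base0.cst_sub]
        exact (inI_cst _ _).2 (hX' c)
      · rw [sub_zero]
        exact InC.zero
  simp only [Jw, ← Finset.sum_sub_distrib, ← smul_sub, add_sub_add_comm]
  refine InC.sum _ _ fun c _ => InC.sum _ _ fun k hk => InC.sum _ _ fun d _ => InC.zsmul ?_ _
  have hk' := Finset.mem_range.1 hk
  exact InC.add (t c k hk'.le _ _) (t c (k + 1) hk' _ _)

variable {b : Ideal O} (hF : ∀ τ l, Is3 n τ l → ∀ i j, i ≠ l → j ≠ l →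
    InI b (curv A τ i j - S.Jw A X τ l i j))
include hX hA hA' hF
theorem flatAt_pt (c : C) {k : ℕ} {l : Fin 4} (hk : k ≤ S.per c) (h : Is3 n (S.pt c k) l) :
    FlatAt A (b ⊔ m.ii (mk c)) (S.pt c k) := fun i j hi hj => by
  have h1 := InC.add ((hF _ l h i j (Base0.ne_of_odd h hi) (Base0.ne_of_odd h hj)).mono
    (le_sup_left (b := m.ii (mk c)))) ((Jw_inI hn hS m hX A c hk l i j).mono le_sup_right)
  rwa [sub_add_cancel] at h1
theorem flatStep_pt (c : C) {k : ℕ} (hk : k < S.per c) :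
    FlatStep (KdQ n) A (b ⊔ m.ii (mk c)) (S.pt c k) (S.pt c (k + 1)) := by
  refine ⟨adj_pt hn hS c hk, ?_⟩
  rcases hS.stp c k hk with ⟨e, l, h⟩ | ⟨l, d, s, h, hd, e⟩ | ⟨l, d, s, h, hd, e⟩
  · exact ⟨_, h.mem, flatAt_pt hn hS m hX hA hA' hF c hk.le h, Base0.isFace_self _,
      e ▸ Base0.isFace_self _⟩
  · exact ⟨_, h.mem, flatAt_pt hn hS m hX hA hA' hF c hk.le h, Base0.isFace_self _,
      e ▸ Base0.isFace_face (h.2 d hd).1 s⟩
  · exact ⟨_, h.mem, flatAt_pt hn hS m hX hA hA' hF c hk h, e ▸ Base0.isFace_face (h.2 d hd).1 s,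
      Base0.isFace_self _⟩
theorem G_shift (c : C) {k : ℕ} (hk : k ≤ S.per c) : InI (b ⊔ m.ii (mk c))
    ((S.G A c k : MM O) - cst (at0 (S.G A c k : MM O)) * Up A (S.pt c k)) := by
  have h0 := pt_mem hn hS c (Nat.zero_le _)
  have h1 := InC.mul_left (shift_holN m.nil (cx_KdQ n) hA hA' (S.pt c) k h0 fun i hi =>
    flatStep_pt hn hS m hX hA hA' hF c (hi.trans_le hk)) (holL (pe A) (S.prim c) : (MM O)ˣ)
  have h2 := holL_pe_const m.nil (cx_KdQ n) hA hA' _ (hS.prim_chain c)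
  have h3 : at0 (Up A (S.pt c 0) : MM O) = 1 := by
    rw [← coe_at0U, at0_Up m.nil (cx_KdQ n) hA hA' h0, Units.val_one]
  rw [CurveSys.G, whis, mul_assoc, Units.val_mul, at0_mul, Units.val_mul, at0_mul, h3, one_mul,
    Base0.cst_mul, ← h2, mul_assoc, ← mul_sub]
  exact h1
theorem H_shift (c : C) :
    InI (b ⊔ m.ii (mk c)) ((S.H A c : MM O) - cst (at0 (S.H A c : MM O))) := by
  have h1 := InC.mul_right (G_shift hn hS m hX hA hA' hF c le_rfl) (↑(S.whis A c)⁻¹ : MM O)
  have h2 := Base0.inv_cst (holL_pe_const m.nil (cx_KdQ n) hA hA' _ (hS.prim_chain c))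
  rw [sub_mul, hS.closed, ← Units.val_mul, mul_assoc, whis, mul_inv_rev, Units.val_mul _ (_)⁻¹,
    Units.mul_inv_cancel_left, h2, ← Base0.cst_mul, ← mul_inv_rev] at h1
  exact Base0.inI_at0 h1
end CurveSys

end Vale.Agent.P215Z
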