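import Vale.Agent.P215Z.Wall.Base
import Vale.Agent.P215Z.Frm.First
import Vale.Agent.P215Z.Frm.Log

noncomputable section
namespace Vale.Agent.P215Z
open MvPolynomial Classical

namespace W2
variable {O : Type} [CommRing O] [Algebra ℚ O]

section gauge
variable {α Γ : Type} [Group Γ] {U U' : α → α → Γ} {k : α → Γ}

theorem holN_gauge (x : ℕ → α) (n : ℕ)
    (h : ∀ i < n, U' (x i) (x (i + 1)) = (k (x i))⁻¹ * U (x i) (x (i + 1)) * k (x (i + 1))) :
    holN U' x n = (k (x 0))⁻¹ * holN U x n * k (x n) := by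
  induction n with
  | zero => simp [holN]
  | succ n ih =>
    rw [holN, holN, ih fun i hi => h i (hi.trans n.lt_succ_self), h n n.lt_succ_self]
    group

theorem holL_gauge {R : α → α → Prop} (h : ∀ a b, R a b → U' a b = (k a)⁻¹ * U a b * k b)
    (l : List α) (hl : l.IsChain R) {a b : α} (ha : l.head? = some a) (hb : l.getLast? = some b) :
    holL U' l = (k a)⁻¹ * holL U l * k b := by
  induction l generalizing a with
  | nil => simp at ha
  | cons x l ih =>
    obtain rfl : x = a := by simpa using ha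
    cases l with
    | nil =>
      obtain rfl : x = b := by simpa using hb
      simp [holL]
    | cons y l =>
      rw [List.isChain_cons_cons] at hl
      rw [holL, holL, h _ _ hl.1, ih hl.2 rfl (by simpa using hb)]
      group

end gauge

theorem adj_face (p : Pt) (d : Fin 4) (c : Bool) : Adj p (face p d c) ∧ Adj (face p d c) p := by
  have h : face p d c - p = if c then ee d else -ee d := by
    funext j
    by_cases hj : j = d
    · subst hj
      cases c <;> simp [face, ee]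
    · cases c <;> simp [face, ee, hj]
  constructor
  · refine Or.inr ⟨d, ?_⟩
    cases c <;> simp [h]
  · refine Or.inr ⟨d, ?_⟩
    rw [← neg_sub, h]
    cases c <;> simp

theorem padj0 {K : Set Pt} {v v' : Pt} (h : PAdj K v v') : ∃ d c c', Odd (midp v v' d) ∧
    v = face (midp v v') d c ∧ v' = face (midp v v') d c' := by
  obtain ⟨h1, -, d, h2⟩ := h
  have h3 := Int.even_iff.1 (h1 d)
  rcases h2 with rfl | rfl
  · refine ⟨d, false, true, Int.odd_iff.2 ?_, funext fun j => ?_, funext fun j => ?_⟩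
    · simp [midp, ee]
      omega
    all_goals
      by_cases hj : j = d
      · subst hj
        simp [midp, ee, face]
        omega
      · simp [midp, ee, face, hj]
        omega
  · refine ⟨d, true, false, Int.odd_iff.2 ?_, funext fun j => ?_, funext fun j => ?_⟩
    · simp [midp, ee]
      omega
    all_goals
      by_cases hj : j = d
      · subst hj
        simp [midp, ee, face]
        omega
      · simp [midp, ee, face, hj]
        omega

theorem padj {K : Set Pt} (hK : Cx K) {v v' : Pt} (h : PAdj K v v') :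
    v ∈ K ∧ v' ∈ K ∧ Adj v (midp v v') ∧ Adj (midp v v') v' := by
  obtain ⟨d, c, c', h1, h2, h3⟩ := padj0 h
  have h4 := h.2.1
  generalize midp v v' = q at *
  subst h2 h3
  exact ⟨hK _ h4 d c h1, hK _ h4 d c' h1, (adj_face q d c).2, (adj_face q d c').1⟩

/-- conjugation as a linear map -/
def AdL {R : Type} [CommRing R] (g : (M2 R)ˣ) : M2 R →ₗ[R] M2 R :=
  LinearMap.mulRight R (g : M2 R) ∘ₗ LinearMap.mulLeft R (↑g⁻¹ : M2 R)

theorem AdL_apply {R : Type} [CommRing R] (g : (M2 R)ˣ) (x : M2 R) : AdL g x = Ad g x := rfl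

theorem AdL_ite {R : Type} [CommRing R] (k : Pt → (M2 R)ˣ) (p τ : Pt) (r : R) (x : M2 R) :
    AdL (k τ) (if p = τ then r • x else 0) = if p = τ then r • Ad (k p) x else 0 := by
  split_ifs with h
  · rw [map_smul, h, AdL_apply]
  · exact map_zero _

theorem tr_mem {b : Ideal O} {x y : MM O} (hx : InI b x) (hy : InI b y) :
    itg (Matrix.trace (x * y)) ∈ b ^ 2 := by
  rw [pow_two]
  exact itg_mem (InC.trace (hx.mul hy))

theorem tr_mem' {b : Ideal O} {x y : MM O} (hx : InI b x) (hy : InI b y) (z : MM O) :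
    itg (Matrix.trace (z * (x * y))) ∈ b ^ 2 := by
  rw [← mul_assoc]
  exact tr_mem (InC.mul_left hx z) hy

theorem lie_mem {b ii : Ideal O} (hi : ii * ii = ⊥) {x y : MM O} (hx : InI ii x)
    (hy : InI (b ⊔ ii) y) : InI b ⁅x, y⁆ := by
  have h : ii * (b ⊔ ii) ≤ b := by
    rw [Ideal.mul_sup, hi, sup_bot_eq]
    exact Ideal.mul_le_inf.trans inf_le_right
  exact InC.sub ((hx.mul hy).mono h) ((hy.mul hx).mono (mul_comm ii _ ▸ h))

theorem cov_Ad (A : F1 O) (p : Pt) (d : Fin 4) (g : (MM O)ˣ) (y : M2 O) :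
    cov A p d (Ad g (cst y)) = ⁅Ad g (cst y), ↑g⁻¹ * (pd d (g : MM O) - g * A p d)⁆ := by
  rw [cov, Ad, pd_mul, pd_mul, pd_cst, pd_inv, Ring.lie_def, Ring.lie_def, mul_sub (↑g⁻¹ : MM O),
    Units.inv_mul_cancel_left]
  simp only [mul_sub, sub_mul, mul_assoc, Units.mul_inv_cancel_left, mul_zero, add_zero, neg_mul]
  abel

/-- the variation of a transport, seen from the base point -/
def vr (x : MM O) (g g' : (MM O)ˣ) : O :=
  itg (Matrix.trace (x * ((g' : MM O) * (↑g⁻¹ : MM O) - 1)))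

omit [Algebra ℚ O] in
theorem var_mem {b : Ideal O} {g g' : (MM O)ˣ} (h : InI b ((g : MM O) - g')) :
    InI b ((g' : MM O) * ↑g⁻¹ - 1) := by
  have e : (g' : MM O) * ↑g⁻¹ - 1 = -(((g : MM O) - g') * ↑g⁻¹) := by
    rw [sub_mul, Units.mul_inv, neg_sub]
  rw [e]
  exact InC.neg (InC.mul_right h _)

theorem vr_step {b : Ideal O} (x : MM O) {g g' u u' : (MM O)ˣ} (h : InI b ((g : MM O) - g'))
    {μ : MM O} (hμ : InI b μ) (hu : (u' : MM O) = u * (1 + μ)) :
    vr x (g * u) (g' * u') - vr x g g' - itg (Matrix.trace (Ad (g * u) x * μ)) ∈ b ^ 2 := by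
  have e : ((g' * u' : (MM O)ˣ) : MM O) * ↑(g * u)⁻¹ - 1 = ((g' : MM O) * ↑g⁻¹ - 1) +
      (g * u : (MM O)ˣ) * μ * ↑(g * u)⁻¹ +
      ((g' : MM O) * ↑g⁻¹ - 1) * ((g * u : (MM O)ˣ) * μ * ↑(g * u)⁻¹) := by
    simp only [mul_inv_rev, Units.val_mul, hu, mul_add, add_mul, sub_mul, mul_one, one_mul,
      mul_assoc, Units.mul_inv_cancel_left, Units.inv_mul_cancel_left]
    abel
  have e2 : Matrix.trace (Ad (g * u) x * μ) =
      Matrix.trace (x * (((g * u : (MM O)ˣ) : MM O) * μ * (↑(g * u)⁻¹ : MM O))) := by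
    rw [Ad, mul_assoc, mul_assoc, Matrix.trace_mul_comm, mul_assoc]
  rw [vr, vr, e, e2, mul_add, mul_add, Matrix.trace_add, Matrix.trace_add, map_add, map_add,
    add_assoc, add_sub_cancel_left, add_sub_cancel_left]
  exact tr_mem' (var_mem h) (InC.mul_right (InC.mul_left hμ _) _) x

theorem vr_loop {a b : Ideal O} (ha : IsNilpotent a) {x : MM O} {h h' w w' : (MM O)ˣ}
    (h1 : h ∈ UG a) (h2 : h' ∈ UG a) (h3 : InI b ((h : MM O) - h')) (h4 : InI b ((w : MM O) - w'))
    (hx : InI b ⁅x, (h : MM O)⁆) :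
    itg (Matrix.trace (x * lg (h' : MM O))) - itg (Matrix.trace (x * lg (h : MM O))) -
      (vr x (h * w) (h' * w') - vr x w w') ∈ b ^ 2 := by
  have h5 : InI b ((h' : MM O) - h) := neg_sub (h : MM O) h' ▸ InC.neg h3
  have hn : IsNilpotent (a.map (C : O →+* RR O)) := by
    obtain ⟨m, hm⟩ := ha
    exact ⟨m, by rw [← Ideal.map_pow, hm, Ideal.zero_eq_bot, Ideal.map_bot, Ideal.zero_eq_bot]⟩
  have d1 := dlog hn h h1 h2 h5 hx
  rw [← Ideal.map_pow] at d1
  have d2 := itg_mem d1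
  have h6 := var_mem h4
  have h7 : InI b ((↑h⁻¹ : MM O) * ((h' : MM O) - h)) := InC.mul_left h5 _
  have e : ((h' * w' : (MM O)ˣ) : MM O) * ↑(h * w)⁻¹ - 1 =
      h * ((↑h⁻¹ : MM O) * ((h' : MM O) - h) + ((w' : MM O) * ↑w⁻¹ - 1) +
        (↑h⁻¹ : MM O) * ((h' : MM O) - h) * ((w' : MM O) * ↑w⁻¹ - 1)) * ↑h⁻¹ := by
    simp only [mul_inv_rev, Units.val_mul, mul_add, add_mul, sub_mul, mul_sub, mul_one, one_mul,
      mul_assoc, Units.mul_inv_cancel_left, Units.mul_inv, Units.inv_mul]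
    abel
  rw [vr, vr, e]
  generalize (↑h⁻¹ : MM O) * ((h' : MM O) - h) = E at d2 h7 ⊢
  generalize (w' : MM O) * ↑w⁻¹ - 1 = D at h6 ⊢
  have e2 : Matrix.trace (x * ((h : MM O) * (E + D + E * D) * (↑h⁻¹ : MM O))) =
      Matrix.trace (x * (E + D + E * D)) +
      Matrix.trace (((↑h⁻¹ : MM O) * ⁅x, (h : MM O)⁆) * (E + D + E * D)) := by
    rw [← mul_assoc, Matrix.trace_mul_comm, ← Matrix.trace_add, Ring.lie_def]
    simp only [mul_sub, sub_mul, mul_assoc, Units.inv_mul_cancel_left, add_sub_cancel]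
  have d3 := tr_mem (InC.mul_left hx (↑h⁻¹ : MM O))
    (InC.add (InC.add h7 h6) (InC.mul_right h7 D))
  have d4 := tr_mem' h7 h6 x
  rw [e2]
  simp only [mul_add x, mul_sub x, Matrix.trace_add, Matrix.trace_sub, map_add, map_sub] at d2 ⊢
  refine Eq.subst (motive := fun z => z ∈ b ^ 2) ?_ (sub_mem (sub_mem d2 d3) d4)
  ring

theorem eps_sum : ∀ l i d : Fin 4, ∑ j, ∑ k, eps4 l i j k * eps4 l d j k =
    if d = i ∧ i ≠ l then 2 else 0 := by decide

theorem eps_ne : ∀ l i j k : Fin 4, eps4 l i j k ≠ 0 → i ≠ l ∧ j ≠ l ∧ k ≠ l := by decide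

/-- the pairing of a one-form with two-forms on a three-cell -/
def pr (e : Fin 4 → MM O) (l : Fin 4) : (Fin 4 → Fin 4 → MM O) →+ O :=
  AddMonoidHom.mk' (fun J => itg (∑ i, ∑ j, ∑ k, eps4 l i j k • Matrix.trace (e i * J j k)))
    fun J J' => by
      simp only [Pi.add_apply, mul_add, Matrix.trace_add, smul_add, Finset.sum_add_distrib, map_add]

theorem pr_eps (e : Fin 4 → MM O) (l : Fin 4) (z : Fin 4 → ℤ) (w : Fin 4 → MM O) :
    pr e l (fun j k => ∑ d, (z d * eps4 l d j k) • w d) =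
      ∑ d, if d ≠ l then (2 * z d) • itg (Matrix.trace (e d * w d)) else 0 := by
  have h : ∀ i, ∑ j, ∑ k, eps4 l i j k • Matrix.trace (e i * ∑ d, (z d * eps4 l d j k) • w d) =
      ∑ d, (z d * ∑ j, ∑ k, eps4 l i j k * eps4 l d j k) • Matrix.trace (e i * w d) := fun i => by
    simp only [Finset.mul_sum, Matrix.trace_sum, Finset.smul_sum, Finset.sum_smul, mul_smul_comm,
      Matrix.trace_smul, smul_smul, mul_left_comm (z _)]
    exact (Finset.sum_congr rfl fun j _ => Finset.sum_comm).trans Finset.sum_comm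
  change itg _ = _
  simp only [h, eps_sum]
  rw [map_sum]
  refine Finset.sum_congr rfl fun i _ => ?_
  rw [Finset.sum_eq_single i (fun d _ hd => by simp [hd]) (by simp)]
  by_cases hi : i = l
  · simp [hi]
  · rw [if_pos ⟨rfl, hi⟩, if_pos hi, map_zsmul, mul_comm]

theorem not_is3 {n : ℕ} {p : Pt} {l d : Fin 4} (h : Is3 n p l) (hd : d ≠ l) (c : Bool)
    (l' : Fin 4) : ¬ Is3 n (face p d c) l' := fun h' => by
  have h1 := Int.odd_iff.1 (h.2 d hd).1
  by_cases h2 : l' = l
  · have h3 := Int.odd_iff.1 (h'.2 d (h2 ▸ hd)).1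
    cases c <;> simp [face] at h3 <;> omega
  · have h3 := Int.odd_iff.1 (h'.2 l (Ne.symm h2)).1
    rw [face_ne hd.symm] at h3
    rcases h.1 with h4 | h4 <;> omega

theorem face_sub (p : Pt) (d : Fin 4) (c : Bool) (j : Fin 4) :
    face p d c j - p j = if j = d then sB c else 0 := by
  by_cases hj : j = d
  · subst hj
    cases c <;> simp [face, sB]
  · simp [face, hj]

/-- the contribution of one step of a curve -/
theorem loc {n : ℕ} {T : Finset (Pt × Fin 4)} (hT : ∀ τ l, (τ, l) ∈ T ↔ Is3 n τ l) {p : Pt}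
    {l d : Fin 4} (h : Is3 n p l) (hd : d ≠ l) (c : Bool) (δ : F1 O) (ξ ξ' : MM O) (r : ℤ) :
    (∑ x ∈ T, ∑ j, if j ≠ x.2 then (2 * (r * (face p d c j - p j))) • itg (Matrix.trace (δ x.1 j *
      ((if p = x.1 then (hat x.1 (face p d c) j : RR O) • ξ else 0) +
        if face p d c = x.1 then (hat x.1 p j : RR O) • ξ' else 0))) else 0) =
      2 * (r • sB c • itg (hat p (face p d c) d * Matrix.trace (ξ * δ p d))) := by
  have h1 : ∀ x ∈ T, face p d c ≠ x.1 := fun x hx e => not_is3 h hd c x.2 (e ▸ (hT _ _).1 hx)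
  rw [Finset.sum_eq_single_of_mem (p, l) ((hT _ _).2 h), Finset.sum_eq_single d, if_pos hd,
    if_pos rfl, if_neg (h1 _ ((hT _ _).2 h)), add_zero, face_sub, if_pos rfl, mul_smul_comm,
    Matrix.trace_smul, Matrix.trace_mul_comm, smul_eq_mul, mul_smul, mul_smul, two_zsmul, two_mul]
  · intro j _ hj
    rw [face_sub, if_neg hj]
    simp
  · simp
  · intro x hx hne
    have h2 : p ≠ x.1 := fun e => hne (Prod.ext e.symm (((hT _ _).1 hx).unique (e ▸ h)))
    simp [h2, h1 x hx]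

end W2

namespace CurveSys
open W2
variable {O : Type} [CommRing O] [Algebra ℚ O] {C G : Type} [Fintype C] {S : CurveSys C} {n : ℕ}
  {mk : C → G} (hn : 0 < n) (hS : S.Valid n mk) (m : Marked O G) {X : C → M2 O}
  (hX : ∀ c, InC (m.ii (mk c)) (X c)) {A : F1 O} (hA : Good1 (KdQ n) A) (hA' : In1 (KdQ n) m.a A)

/-! W2: the action is stationary and gauge invariant -/
include hn hS hA hA'
theorem SS_gauge {k : Pt → (MM O)ˣ} (hk : Good0 (KdQ n) fun p => (k p : MM O))
    (hk' : ∀ p ∈ KdQ n, k p ∈ UG m.a) (h0 : k 0 = 1) :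
    S.SS n (gauge A k) X = S.SS n A X ∧ (∀ c, S.H (gauge A k) c = S.H A c) ∧
      ∀ b, S.Crit n A X b → S.Crit n (gauge A k) X b := by
  have hK := cx_KdQ n
  have st := fun p p' hp hp' h => step_gauge m.nil hK hA' hk hk' (p := p) (p' := p') hp hp' h
  have w1 : ∀ c, S.whis (gauge A k) c = S.whis A c * k (S.pt c 0) := fun c => by
    have hp := pt_mem hn hS c (Nat.zero_le _)
    have e1 : holL (pe (gauge A k)) (S.prim c) = _ := holL_gauge (U := pe A) (k := k)
      (fun v v' h => by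
        obtain ⟨a1, a2, a3, a4⟩ := padj hK h
        rw [pe, pe, st _ _ a1 h.2.1 a3, st _ _ h.2.1 a2 a4]
        group) _ (hS.prim_chain c) (hS.prim_head c) (hS.prim_last c)
    have e2 : Up (gauge A k) (S.pt c 0) = _ := holN_gauge (U := step A) (k := k) _ 4
      fun i _ => st _ _ (hK.isFace hp (isFace_upTo _ _)) (hK.isFace hp (isFace_upTo _ _))
        (adj_upTo _ _)
    have e3 : upTo (S.pt c 0) 0 = wv (S.pt c 0) := funext fun j => if_neg (Nat.not_lt_zero _)
    have e4 : upTo (S.pt c 0) 4 = S.pt c 0 := funext fun j => if_pos j.2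
    rw [whis, whis, e1, e2, e3, e4, h0, Up]
    group
  have w2 : ∀ c, ∀ s ≤ S.per c, S.G (gauge A k) c s = S.G A c s * k (S.pt c s) := fun c s hs => by
    rw [CurveSys.G, CurveSys.G, w1, holN_gauge (U := step A) (k := k) _ s fun i hi =>
      st _ _ (pt_mem hn hS c (hi.le.trans hs)) (pt_mem hn hS c (hi.trans_le hs))
        (adj_pt hn hS c (hi.trans_le hs))]
    group
  have w3 : ∀ c, S.H (gauge A k) c = S.H A c := fun c => by
    rw [H, H, w1, w2 c _ le_rfl, hS.closed]
    group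
  refine ⟨?_, w3, fun b hb => ⟨fun τ l hτ i j hi hj => ?_, fun c => ?_⟩⟩
  · rw [SS, SS, cs_gauge (Q0 n) hK (fun τ l h => ?_) m.nil hA hk hk']
    · simp only [w3]
    · rw [oX_Q0 hn] at h
      exact Is3.mem (by_contra fun h1 => h (if_neg h1))
  · have e : S.Jw (gauge A k) X τ l i j = AdL (k τ) (S.Jw A X τ l i j) := by
      simp only [Jw, map_sum, map_zsmul, map_add, AdL_ite]
      refine Finset.sum_congr rfl fun c _ => Finset.sum_congr rfl fun s hs =>
        Finset.sum_congr rfl fun d _ => ?_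
      have h1 := Finset.mem_range.1 hs
      simp only [xi, w2 c s h1.le, w2 c (s + 1) h1, Ad_mul]
    rw [e, curv_gauge, ← AdL_apply, ← map_sub]
    exact InC.Ad (hb.1 τ l hτ i j hi hj) (k τ)
  · rw [w3]
    exact hb.2 c

include hX
theorem SS_stat {b : Ideal O} (hc : S.Crit n A X b) {A' : F1 O} (hB : Good1 (KdQ n) A')
    (hB' : In1 (KdQ n) m.a A') (h : In1 (KdQ n) b (A' - A)) :
    S.SS n A' X - S.SS n A X ∈ b ^ 2 := by
  have hK := cx_KdQ n
  have h' : In1 (KdQ n) b (A - A') := fun p hp i hi => by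
    rw [← neg_sub]
    exact InC.neg (h p hp i hi)
  have ha : In1 (KdQ n) m.a (A' - A) := fun p hp i hi => InC.sub (hB' p hp i hi) (hA' p hp i hi)
  have hG := hB.sub hA
  obtain ⟨δ, rfl⟩ : ∃ δ, A' = A + δ := ⟨A' - A, (add_sub_cancel _ _).symm⟩
  rw [add_sub_cancel_left] at h ha hG
  have i3 : ∀ τ l, oX (Q0 n) τ l ≠ 0 ↔ Is3 n τ l := fun τ l => by
    rw [oX_Q0 hn, oQ]
    split_ifs <;> simp [*]
  have hx : ∀ c, InI (m.ii (mk c)) (cst (X c)) := fun c => (inI_cst _ _).2 (hX c)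
  obtain ⟨T, hT⟩ := exists_bd_finset (Q0 n)
  simp only [i3] at hT
  have c1 := cs_var (Q0 n) hK (fun τ l h => ((i3 τ l).1 h).mem) hA hG h
  have c2 := Bd_sub_mem (Q0 n) (fun τ l => pr (δ τ) l (curv A τ))
    (fun τ l => pr (δ τ) l (S.Jw A X τ l)) (b ^ 2) fun τ l h1 => by
      have h2 := (i3 τ l).1 h1
      rw [← map_sub]
      change itg _ ∈ _
      simp only [map_sum, map_zsmul]
      refine sum_mem fun i _ => sum_mem fun j _ => sum_mem fun k _ => ?_
      by_cases h3 : eps4 l i j k = 0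
      · rw [h3, zero_smul]
        exact zero_mem _
      · obtain ⟨a1, a2, a3⟩ := eps_ne l i j k h3
        exact zsmul_mem (tr_mem (h τ h2.mem i (h2.2 i a1).1) (hc.1 τ l h2 j k a2 a3)) _
  have c3 : Bd (Q0 n) (fun τ l => pr (δ τ) l (S.Jw A X τ l)) =
      ∑ c, ∑ s ∈ Finset.range (S.per c), ∑ x ∈ T, ∑ j, if j ≠ x.2 then
        (2 * (S.pt c (s + 1) j - S.pt c s j)) • itg (Matrix.trace (δ x.1 j *
        ((if S.pt c s = x.1 then (hat x.1 (S.pt c (s + 1)) j : RR O) • S.xi A X c s else 0) +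
          if S.pt c (s + 1) = x.1 then (hat x.1 (S.pt c s) j : RR O) • S.xi A X c (s + 1)
            else 0))) else 0 := by
    rw [Bd_eq_sum _ _ T fun τ l h1 => (hT τ l).2 ((i3 τ l).1 h1)]
    refine Eq.trans (Finset.sum_congr rfl fun x hx => ?_)
      (Finset.sum_comm.trans (Finset.sum_congr rfl fun c _ => Finset.sum_comm))
    have e : S.Jw A X x.1 x.2 = ∑ c, ∑ s ∈ Finset.range (S.per c), fun i j => ∑ d,
        (oQ x.1 x.2 * (S.pt c (s + 1) d - S.pt c s d) * eps4 x.2 d i j) •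
        ((if S.pt c s = x.1 then (hat x.1 (S.pt c (s + 1)) d : RR O) • S.xi A X c s else 0) +
          if S.pt c (s + 1) = x.1 then (hat x.1 (S.pt c s) d : RR O) • S.xi A X c (s + 1)
            else 0) := by
      funext i j
      simp only [Jw, Finset.sum_apply]
    have e2 : oQ x.1 x.2 * oQ x.1 x.2 = 1 := by
      rw [oQ]
      split_ifs <;> rfl
    rw [e, oX_Q0 hn, if_pos ((hT _ _).1 hx)]
    simp only [map_sum, pr_eps, Finset.smul_sum, smul_ite, smul_zero, smul_smul,
      mul_left_comm (oQ x.1 x.2) 2, ← mul_assoc (oQ x.1 x.2), e2, one_mul]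
  have cv : ∀ c, ∀ s ≤ S.per c, ∀ l d, Is3 n (S.pt c s) l → d ≠ l →
      InI b (cov A (S.pt c s) d (S.xi A X c s)) := fun c s hs l d h1 hd => by
    have hf : FlatAt A (b ⊔ m.ii (mk c)) (S.pt c s) := fun i j hi hj => by
      have ev : ∀ i, Odd (S.pt c s i) → i ≠ l := by
        rintro i hi rfl
        rw [Int.odd_iff] at hi
        rcases h1.1 with h2 | h2 <;> omega
      rw [← sub_add_cancel (curv A _ i j) (S.Jw A X _ l i j)]
      exact InC.add ((hc.1 _ l h1 i j (ev i hi) (ev j hj)).mono le_sup_left)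
        ((Jw_inI hn hS m hX A c hs l i j).mono le_sup_right)
    have u1 := Up_cov m.nil hK hA hA' h1.mem hf (h1.2 d hd).1
    have u2 := G_shift hn hS m hX hA hA' hc.1 c hs
    rw [xi, cov_Ad]
    refine lie_mem (m.sq _) (InC.Ad (hx c) _) (InC.mul_left ?_ _)
    generalize at0 (S.G A c s : MM O) = y at u2
    obtain ⟨ε, e⟩ : ∃ ε, (S.G A c s : MM O) = cst y * Up A (S.pt c s) + ε :=
      ⟨_, (add_sub_cancel _ _).symm⟩
    rw [e, add_sub_cancel_left] at u2
    have e2 : pd d (S.G A c s : MM O) - S.G A c s * A (S.pt c s) d =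
        cst y * (pd d (Up A (S.pt c s) : MM O) - Up A (S.pt c s) * A (S.pt c s) d) +
          (pd d ε - ε * A (S.pt c s) d) := by
      rw [e, pd_add, pd_mul, pd_cst]
      noncomm_ring
    rw [e2]
    exact InC.add (InC.mul_left u1 _) (InC.sub (u2.pd d) (InC.mul_right u2 _))
  have gs : ∀ (B : F1 O) c s, S.G B c (s + 1) = S.G B c s * step B (S.pt c s) (S.pt c (s + 1)) :=
    fun B c s => (mul_assoc _ _ _).symm
  have gc := fun c s hs => G_congr hn hS m hA' hB' h' c (k := s) hs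
  have c4 : ∀ c, ∀ s < S.per c, (∑ x ∈ T, ∑ j, if j ≠ x.2 then
        (2 * (S.pt c (s + 1) j - S.pt c s j)) • itg (Matrix.trace (δ x.1 j *
        ((if S.pt c s = x.1 then (hat x.1 (S.pt c (s + 1)) j : RR O) • S.xi A X c s else 0) +
          if S.pt c (s + 1) = x.1 then (hat x.1 (S.pt c s) j : RR O) • S.xi A X c (s + 1)
            else 0))) else 0) - 2 * (vr (cst (X c)) (S.G A c (s + 1)) (S.G (A + δ) c (s + 1)) -
            vr (cst (X c)) (S.G A c s) (S.G (A + δ) c s)) ∈ b ^ 2 := fun c s hs => by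
    rcases hS.stp c s hs with ⟨e, -⟩ | ⟨l, d, t, h1, hd, e⟩ | ⟨l, d, t, h1, hd, e⟩
    · rw [gs, gs, e, step_self, step_self]
      simp
    · have ho := (h1.2 d hd).1
      obtain ⟨μ, m1, m2, m3⟩ := inn_var m.nil t (hA' _ h1.mem d ho) (ha _ h1.mem d ho)
        (h _ h1.mem d ho) (cv c s hs.le l d h1 hd)
      have g1 : ∀ B : F1 O, S.G B c s = S.G B c (s + 1) * inn B (S.pt c s) d t := fun B => by
        rw [gs, e, step_out B t ho, inv_mul_cancel_right]
      have v := vr_step (cst (X c)) (gc c (s + 1) hs) m1 m2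
      have z := loc hT h1 hd t δ (S.xi A X c s) (S.xi A X c (s + 1)) 1
      rw [← g1, ← g1] at v
      simp only [one_mul, one_smul, ← e] at z m3
      rw [z]
      refine Eq.subst (motive := fun z => z ∈ b ^ 2) ?_ (Ideal.mul_mem_left _ 2 (add_mem v m3))
      rw [xi]
      ring
    · have ho := (h1.2 d hd).1
      obtain ⟨μ, m1, m2, m3⟩ := inn_var m.nil t (hA' _ h1.mem d ho) (ha _ h1.mem d ho)
        (h _ h1.mem d ho) (cv c (s + 1) hs l d h1 hd)
      have g1 : ∀ B : F1 O, S.G B c (s + 1) = S.G B c s * inn B (S.pt c (s + 1)) d t := fun B => by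
        rw [gs, e, step_in B t ho]
      have v := vr_step (cst (X c)) (gc c s hs.le) m1 m2
      have z := loc hT h1 hd t δ (S.xi A X c (s + 1)) (S.xi A X c s) (-1)
      rw [← g1, ← g1] at v
      simp only [neg_one_mul, neg_sub, neg_one_smul, ← e] at z m3
      simp only [add_comm (if S.pt c s = _ then _ else _)]
      rw [z]
      refine Eq.subst (motive := fun z => z ∈ b ^ 2) ?_ (Ideal.mul_mem_left _ (-2) (add_mem v m3))
      rw [xi]
      ring
  have c5 : ∀ c, itg (Matrix.trace (cst (X c) * lg (S.H (A + δ) c : MM O))) -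
      itg (Matrix.trace (cst (X c) * lg (S.H A c : MM O))) - ∑ s ∈ Finset.range (S.per c),
        (vr (cst (X c)) (S.G A c (s + 1)) (S.G (A + δ) c (s + 1)) -
          vr (cst (X c)) (S.G A c s) (S.G (A + δ) c s)) ∈ b ^ 2 := fun c => by
    have g0 : ∀ B : F1 O, S.G B c 0 = S.whis B c := fun B => mul_one _
    have g1 : ∀ B : F1 O, S.G B c (S.per c) = S.H B c * S.G B c 0 := fun B => by
      rw [g0, H, inv_mul_cancel_right]
    rw [Finset.sum_range_sub fun s => vr (cst (X c)) (S.G A c s) (S.G (A + δ) c s), g1, g1]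
    refine vr_loop m.nil (H_mem hn hS m hA' c) (H_mem hn hS m hB' c)
      (H_congr hn hS m hA' hB' h' c) (gc c 0 (Nat.zero_le _)) ?_
    have u1 := lie_mem (m.sq _) (hx c) (H_shift hn hS m hX hA hA' hc.1 c)
    have u2 := (inI_cst b _).2 (hc.2 c)
    have e : cst ⁅X c, (at0U (S.H A c) : M2 O)⁆ = ⁅cst (X c), cst (at0 (S.H A c : MM O))⁆ := by
      simp only [Ring.lie_def, cst, Matrix.map_sub, map_sub, implies_true, Matrix.map_mul, coe_at0U]
    rw [e] at u2
    refine Eq.subst (motive := InI b) ?_ (InC.add u1 u2)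
    simp only [Ring.lie_def]
    noncomm_ring
  have c6 := sum_mem fun c (_ : c ∈ Finset.univ) => sum_mem fun s hs => c4 c s (Finset.mem_range.1 hs)
  have c7 := sum_mem fun c (_ : c ∈ Finset.univ) => c5 c
  simp only [Finset.sum_sub_distrib, ← Finset.mul_sum] at c6 c7
  rw [← c3] at c6
  refine Eq.subst (motive := fun z => z ∈ b ^ 2) ?_
    (sub_mem (add_mem (add_mem c1 c2) c6) (Ideal.mul_mem_left _ 2 c7))
  rw [SS, SS]
  change _ - _ - Bd (Q0 n) (fun τ l => pr (δ τ) l (curv A τ)) + _ + _ - _ = _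
  ring
end CurveSys

end Vale.Agent.P215Z
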